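import Vale.Agent.P130.Morse.Transfer

/-! # P130 — the model on the circle: a generalized Riesz product with flat factors -/

noncomputable section

open scoped InnerProductSpace Topology ComplexConjugate
open Filter Finset MeasureTheory AddCircle

namespace Vale.Agent.P130.Morse

local instance : Fact (0 < (1 : ℝ)) := ⟨one_pos⟩

/-- The model Hilbert space. -/
abbrev CircleL2 := Lp ℂ 2 (haarAddCircle (T := (1 : ℝ)))

theorem norm_fourier_apply (k : ℤ) (t : AddCircle (1 : ℝ)) : ‖fourier k t‖ = 1 :=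
  Circle.norm_coe _

theorem fourier_mul_fourier (a b : ℤ) :
    (fourier a * fourier b : C(AddCircle (1 : ℝ), ℂ)) = fourier (a + b) := by
  ext t; simp

theorem fourier_natMul (i : ℕ) (a : ℤ) (t : AddCircle (1 : ℝ)) :
    fourier ((i : ℤ) * a) t = (fourier a t) ^ i := by
  induction i with
  | zero => simp
  | succ i ih => rw [Nat.cast_succ, add_one_mul, fourier_add, ih, pow_succ]

theorem integral_fourier (k : ℤ) :
    ∫ t, fourier k t ∂(haarAddCircle (T := (1 : ℝ))) = if k = 0 then 1 else 0 := by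
  have h := orthonormal_iff_ite.1 (orthonormal_fourier (T := (1 : ℝ))) 0 k
  rw [fourierLp, fourierLp, ContinuousMap.inner_toLp] at h
  simpa [eq_comm (a := k)] using h

namespace Blocks

variable (B : Blocks)

/-- The polynomial attached to block `n`. -/
def Q (n : ℕ) : C(AddCircle (1 : ℝ), ℂ) :=
  ∑ i ∈ range (B.len n), (B.sgn n i : ℂ) • fourier (-((i : ℤ) * B.M n))

theorem Q_apply (n : ℕ) (t : AddCircle (1 : ℝ)) :
    B.Q n t = ∑ i ∈ range (B.len n), (B.sgn n i : ℂ) * fourier (-((i : ℤ) * B.M n)) t := by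
  simp [Q]

/-- The normalized factor. -/
def F (n : ℕ) (t : AddCircle (1 : ℝ)) : ℝ := ‖B.Q n t‖ ^ 2 / B.len n

theorem continuous_F (n : ℕ) : Continuous (B.F n) := by unfold F; fun_prop

theorem F_near (n : ℕ) (t : AddCircle (1 : ℝ)) : |B.F n t - 1| ≤ (1 / 2) ^ (n + 2) := by
  have h := B.flat n (fourier (-(B.M n : ℤ)) t) (norm_fourier_apply _ _)
  rw [F, Q_apply]
  simp only [← mul_neg, fourier_natMul]
  exact h

theorem eps_le (n : ℕ) : (1 / 2 : ℝ) ^ (n + 2) ≤ 1 / 4 := by
  calc (1 / 2 : ℝ) ^ (n + 2) ≤ (1 / 2) ^ 2 :=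
        pow_le_pow_of_le_one (by norm_num) (by norm_num) (by omega)
    _ = 1 / 4 := by norm_num

theorem Q_ne_zero (n : ℕ) (t : AddCircle (1 : ℝ)) : B.Q n t ≠ 0 := by
  intro h
  have h1 := B.F_near n t
  rw [F, h, norm_zero] at h1
  norm_num at h1
  have := eps_le n
  norm_num at this
  linarith

/-- The partial products. -/
def R (a b : ℕ) (t : AddCircle (1 : ℝ)) : ℝ := ∏ m ∈ Finset.Ico a b, B.F m t

theorem continuous_R (a b : ℕ) : Continuous (B.R a b) := by
  unfold R; exact continuous_finsetProd _ fun m _ => B.continuous_F m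

theorem R_succ {a b : ℕ} (h : a ≤ b) (t : AddCircle (1 : ℝ)) :
    B.R a (b + 1) t = B.R a b t * B.F b t := by
  rw [R, Finset.prod_Ico_succ_top h]; rfl

theorem R_mul {a b c : ℕ} (h : a ≤ b) (h' : b ≤ c) (t : AddCircle (1 : ℝ)) :
    B.R a b t * B.R b c t = B.R a c t := Finset.prod_Ico_consecutive _ h h'

theorem R_bounds (a : ℕ) (t : AddCircle (1 : ℝ)) : ∀ b, a ≤ b →
    1 / 2 + (1 / 2) ^ (b + 1) ≤ B.R a b t ∧ B.R a b t ≤ 2 - (1 / 2) ^ b := by
  intro b hb
  induction b, hb using Nat.le_induction with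
  | base =>
    rw [R, Finset.Ico_self, Finset.prod_empty]
    constructor <;> nlinarith [pow_le_one₀ (n := a) (by norm_num : (0:ℝ) ≤ 1/2) (by norm_num),
      pow_succ (1/2 : ℝ) a]
  | succ b hb ih =>
    rw [B.R_succ hb]
    have h := abs_le.1 (B.F_near b t)
    have e0 : (0 : ℝ) < (1 / 2) ^ b := by positivity
    have e1 : (1 / 2 : ℝ) ^ b ≤ 1 := pow_le_one₀ (by norm_num) (by norm_num)
    simp only [pow_succ] at ih h ⊢
    constructor <;> nlinarith [ih.1, ih.2, h.1, h.2]

theorem R_pos {a b : ℕ} (h : a ≤ b) (t : AddCircle (1 : ℝ)) : 0 < B.R a b t :=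
  lt_of_lt_of_le (by positivity) (B.R_bounds a t b h).1

theorem norm_R_diff (k : ℕ) (t : AddCircle (1 : ℝ)) :
    ‖B.R 0 (k + 1) t - B.R 0 k t‖ ≤ (1 / 2) ^ k := by
  rw [B.R_succ k.zero_le, Real.norm_eq_abs,
    show B.R 0 k t * B.F k t - B.R 0 k t = B.R 0 k t * (B.F k t - 1) by ring, abs_mul,
    abs_of_pos (B.R_pos k.zero_le t)]
  have h1 := (B.R_bounds 0 t k k.zero_le).2
  have h2 := B.F_near k t
  have h3 : (0 : ℝ) < (1 / 2) ^ k := by positivity
  simp only [pow_succ] at h2
  nlinarith [abs_nonneg (B.F k t - 1), B.R_pos k.zero_le t]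

/-- The density. -/
def rho (t : AddCircle (1 : ℝ)) : ℝ := 1 + ∑' k, (B.R 0 (k + 1) t - B.R 0 k t)

theorem continuous_rho : Continuous B.rho :=
  continuous_const.add (continuous_tsum (fun k => (B.continuous_R _ _).sub (B.continuous_R _ _))
    summable_geometric_two (fun k t => B.norm_R_diff k t))

theorem tendsto_R (t : AddCircle (1 : ℝ)) :
    Tendsto (fun b => B.R 0 b t) atTop (𝓝 (B.rho t)) := by
  have hs : Summable fun k => B.R 0 (k + 1) t - B.R 0 k t :=
    Summable.of_norm_bounded summable_geometric_two (fun k => B.norm_R_diff k t)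
  have := hs.hasSum.tendsto_sum_nat.const_add (1 : ℝ)
  refine this.congr fun b => ?_
  rw [Finset.sum_range_sub (fun k => B.R 0 k t)]
  simp [R]

theorem half_le_rho (t : AddCircle (1 : ℝ)) : 1 / 2 ≤ B.rho t :=
  ge_of_tendsto (B.tendsto_R t) (Eventually.of_forall fun b =>
    le_trans (le_add_of_nonneg_right (by positivity)) (B.R_bounds 0 t b b.zero_le).1)

theorem rho_pos (t : AddCircle (1 : ℝ)) : 0 < B.rho t :=
  lt_of_lt_of_le (by norm_num) (B.half_le_rho t)

theorem F_expand (n : ℕ) (t : AddCircle (1 : ℝ)) :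
    (B.F n t : ℂ) = (∑ i ∈ range (B.len n), ∑ i' ∈ range (B.len n),
      ((B.sgn n i * B.sgn n i' : ℝ) : ℂ) * fourier (((i : ℤ) - i') * B.M n) t) / B.len n := by
  rw [F, Complex.ofReal_div, Complex.ofReal_pow, ← Complex.conj_mul', Complex.ofReal_natCast,
    Q_apply, map_sum, Finset.sum_mul_sum]
  congr 1
  refine sum_congr rfl fun i _ => sum_congr rfl fun i' _ => ?_
  rw [map_mul, Complex.conj_ofReal, ← fourier_neg,
    show ((i : ℤ) - i') * B.M n = - -((i : ℤ) * B.M n) + -((i' : ℤ) * B.M n) by ring, fourier_add]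
  push_cast; ring

theorem integral_R (n : ℕ) : ∀ n', n ≤ n' → ∀ k : ℤ,
    (k = 0 ∨ ¬ (B.M n : ℤ) ∣ k ∨ (B.M n' : ℤ) ≤ |k|) →
    ∫ t, fourier k t * (B.R n n' t : ℂ) ∂(haarAddCircle (T := (1 : ℝ)))
      = if k = 0 then 1 else 0 := by
  intro n' hn'
  induction n', hn' using Nat.le_induction with
  | base =>
    intro k _
    simpa [R] using integral_fourier k
  | succ n' hn' ih =>
    intro k hk
    set N := B.len n' with hN
    have hN0 : (N : ℂ) ≠ 0 := by
      have := B.two_le n'
      exact_mod_cast show N ≠ 0 by omega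
    have e : ∀ t, fourier k t * (B.R n (n' + 1) t : ℂ)
        = ∑ p ∈ range N ×ˢ range N, (((B.sgn n' p.1 * B.sgn n' p.2 : ℝ) : ℂ) / N) *
          (fourier (k + ((p.1 : ℤ) - p.2) * B.M n') t * (B.R n n' t : ℂ)) := by
      intro t
      rw [B.R_succ hn', Complex.ofReal_mul, B.F_expand, Finset.sum_product, Finset.sum_div,
        Finset.mul_sum, Finset.mul_sum]
      refine sum_congr rfl fun i _ => ?_
      rw [Finset.sum_div, Finset.mul_sum, Finset.mul_sum]
      refine sum_congr rfl fun i' _ => ?_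
      rw [fourier_add]; ring
    simp_rw [e]
    have hc : Continuous fun t => (B.R n n' t : ℂ) :=
      Complex.continuous_ofReal.comp (B.continuous_R _ _)
    have hint : ∀ p ∈ range N ×ˢ range N, Integrable (fun t =>
        (((B.sgn n' p.1 * B.sgn n' p.2 : ℝ) : ℂ) / N) *
          (fourier (k + ((p.1 : ℤ) - p.2) * B.M n') t * (B.R n n' t : ℂ)))
        (haarAddCircle (T := (1 : ℝ))) := fun p _ =>
      (continuous_const.mul ((map_continuous (fourier _)).mul hc)).integrable_of_hasCompactSupport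
        (HasCompactSupport.of_compactSpace _)
    rw [integral_finsetSum _ hint]
    simp_rw [integral_const_mul]
    have hcase : ∀ p ∈ range N ×ˢ range N,
        ∫ t, fourier (k + ((p.1 : ℤ) - p.2) * B.M n') t * (B.R n n' t : ℂ)
          ∂(haarAddCircle (T := (1 : ℝ))) = if k = 0 ∧ p.1 = p.2 then 1 else 0 := by
      intro p hp
      rw [mem_product, mem_range, mem_range] at hp
      have hM : (0 : ℤ) < B.M n' := by exact_mod_cast B.M_pos n'
      set d : ℤ := (p.1 : ℤ) - p.2 with hd
      have hdb : |d| ≤ (N : ℤ) - 1 := abs_le.2 ⟨by omega, by omega⟩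
      rcases hk with h0 | hndvd | hbig
      · subst h0
        by_cases hpp : p.1 = p.2
        · rw [ih _ (Or.inl (by simp [hd, hpp])), if_pos (by simp [hd, hpp]),
            if_pos ⟨rfl, hpp⟩]
        · have hd0 : d ≠ 0 := by omega
          have : (B.M n' : ℤ) ≤ |0 + d * B.M n'| := by
            rw [zero_add, abs_mul, abs_of_pos hM]
            exact le_mul_of_one_le_left hM.le (Int.one_le_abs hd0)
          rw [ih _ (Or.inr (Or.inr this)), if_neg, if_neg (by simp [hpp])]
          simp [hd0, (B.M_pos n').ne']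
      · have : ¬ (B.M n : ℤ) ∣ k + d * B.M n' := fun h => hndvd <|
          (dvd_add_left ((Int.natCast_dvd_natCast.2 (B.M_dvd hn')).mul_left d)).1 h
        rw [ih _ (Or.inr (Or.inl this)), if_neg, if_neg]
        · rintro ⟨rfl, -⟩; exact hndvd (dvd_zero _)
        · intro h; exact this (h ▸ dvd_zero _)
      · have hM1 : (B.M (n' + 1) : ℤ) = B.M n' * N := by simp [M, hN]
        have : (B.M n' : ℤ) ≤ |k + d * B.M n'| := by
          have h1 : |d * B.M n'| ≤ ((N : ℤ) - 1) * B.M n' := by
            rw [abs_mul, abs_of_pos hM]; exact mul_le_mul_of_nonneg_right hdb hM.le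
          have h2 := abs_sub_abs_le_abs_sub k (-(d * B.M n'))
          rw [sub_neg_eq_add, abs_neg] at h2
          rw [hM1] at hbig
          nlinarith
        rw [ih _ (Or.inr (Or.inr this)), if_neg, if_neg]
        · rintro ⟨rfl, -⟩
          simp only [abs_zero] at hbig
          have := B.M_pos (n' + 1); omega
        · intro h
          rw [h, abs_zero] at this; omega
    rw [sum_congr rfl fun p hp => by rw [hcase p hp]]
    by_cases h0 : k = 0
    · simp only [h0, true_and, mul_ite, mul_one, mul_zero, if_true]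
      rw [Finset.sum_product]
      simp only [Finset.sum_ite_eq, mem_range]
      rw [sum_congr rfl (g := fun _ => (1 : ℂ) / N) fun i hi => by
        rw [if_pos (mem_range.1 hi), B.sgn_mul_self, Complex.ofReal_one]]
      rw [sum_const, card_range, nsmul_eq_mul]
      field_simp
    · simp [h0]

theorem integral_tail (n : ℕ) {k : ℤ} (hk : k = 0 ∨ ¬ (B.M n : ℤ) ∣ k) :
    ∫ t, fourier k t * ((B.rho t / B.R 0 n t : ℝ) : ℂ) ∂(haarAddCircle (T := (1 : ℝ)))
      = if k = 0 then 1 else 0 := by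
  have hlim : Tendsto (fun b => ∫ t, fourier k t * (B.R n b t : ℂ)
      ∂(haarAddCircle (T := (1 : ℝ)))) atTop
      (𝓝 (∫ t, fourier k t * ((B.rho t / B.R 0 n t : ℝ) : ℂ)
      ∂(haarAddCircle (T := (1 : ℝ))))) := by
    refine tendsto_integral_filter_of_dominated_convergence (fun _ => (2 : ℝ)) ?_ ?_
      (integrable_const _) ?_
    · exact Eventually.of_forall fun b => ((map_continuous (fourier k)).mul
        (Complex.continuous_ofReal.comp (B.continuous_R _ _))).aestronglyMeasurable
    · filter_upwards [eventually_ge_atTop n] with b hb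
      refine Eventually.of_forall fun t => ?_
      rw [norm_mul, norm_fourier_apply, one_mul, Complex.norm_real,
        Real.norm_of_nonneg (B.R_pos hb t).le]
      exact le_trans (B.R_bounds n t b hb).2 (sub_le_self _ (by positivity))
    · refine Eventually.of_forall fun t => Tendsto.const_mul _ ?_
      refine (Complex.continuous_ofReal.tendsto _).comp ?_
      refine ((B.tendsto_R t).div_const (B.R 0 n t)).congr' ?_
      filter_upwards [eventually_ge_atTop n] with b hb
      rw [← B.R_mul n.zero_le hb, mul_div_cancel_left₀ _ (B.R_pos n.zero_le t).ne']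
  refine tendsto_nhds_unique hlim (tendsto_const_nhds.congr' ?_)
  filter_upwards [eventually_ge_atTop n] with b hb
  exact (B.integral_R n b hb k (hk.imp id Or.inl)).symm

/-- The square root of the density. -/
def h0 : C(AddCircle (1 : ℝ), ℂ) :=
  ⟨fun t => (Real.sqrt (B.rho t) : ℂ), Complex.continuous_ofReal.comp B.continuous_rho.sqrt⟩

/-- The image of the first cell of level `n`. -/
def h (n : ℕ) : C(AddCircle (1 : ℝ), ℂ) :=
  ⟨fun t => B.h0 t / ∏ m ∈ range n, B.Q m t,
    (map_continuous B.h0).div (continuous_finsetProd _ fun m _ => map_continuous (B.Q m))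
      fun t => Finset.prod_ne_zero_iff.2 fun m _ => B.Q_ne_zero m t⟩

theorem M_eq_prod : ∀ n, B.M n = ∏ m ∈ range n, B.len m
  | 0 => rfl
  | n + 1 => by rw [M, M_eq_prod n, Finset.prod_range_succ]

theorem conj_h_mul_h (n : ℕ) (t : AddCircle (1 : ℝ)) :
    conj (B.h n t) * B.h n t = ((B.rho t / B.R 0 n t : ℝ) : ℂ) / B.M n := by
  have hR : B.R 0 n t = ‖∏ m ∈ range n, B.Q m t‖ ^ 2 / B.M n := by
    rw [norm_prod, ← Finset.prod_pow, M_eq_prod, Nat.cast_prod, ← Finset.prod_div_distrib, R,
      Finset.range_eq_Ico]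
    rfl
  rw [Complex.conj_mul', hR]
  have hM : (B.M n : ℝ) ≠ 0 := by exact_mod_cast (B.M_pos n).ne'
  show ((‖(Real.sqrt (B.rho t) : ℂ) / ∏ m ∈ range n, B.Q m t‖ : ℝ) : ℂ) ^ 2 = _
  rw [norm_div, Complex.norm_real, Real.norm_of_nonneg (Real.sqrt_nonneg _),
    ← Complex.ofReal_pow, div_pow, Real.sq_sqrt (B.rho_pos t).le, ← Complex.ofReal_natCast,
    ← Complex.ofReal_div]
  congr 1
  field_simp

end Blocks

/-- Passing to `L²`. -/
def toL2 : C(AddCircle (1 : ℝ), ℂ) →L[ℂ] CircleL2 := ContinuousMap.toLp 2 haarAddCircle ℂ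

theorem toL2_fourier (k : ℤ) : toL2 (fourier k) = fourierLp (T := (1 : ℝ)) 2 k := rfl

theorem exists_mul_fourier : ∃ U : CircleL2 ≃ₗᵢ[ℂ] CircleL2,
    ∀ (k : ℤ) (φ : C(AddCircle (1 : ℝ), ℂ)), (U ^ k) (toL2 φ) = toL2 (fourier k * φ) := by
  have hsp : Submodule.span ℂ (Set.range fun k : ℤ => fourierLp (T := (1 : ℝ)) 2 (k + 1))
      = Submodule.span ℂ (Set.range (fourierLp (T := (1 : ℝ)) 2)) := by
    congr 1
    exact Set.Subset.antisymm (Set.range_subset_iff.2 fun k => ⟨k + 1, rfl⟩)
      (Set.range_subset_iff.2 fun k => ⟨k - 1, by simp⟩)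
  let b' : HilbertBasis ℤ ℂ CircleL2 :=
    HilbertBasis.mk ((orthonormal_fourier (T := (1 : ℝ))).comp (fun k => k + 1)
      (add_left_injective 1))
      (by
        show ⊤ ≤ (Submodule.span ℂ
          (Set.range fun k : ℤ => fourierLp (T := (1 : ℝ)) 2 (k + 1))).topologicalClosure
        rw [hsp, span_fourierLp_closure_eq_top (by simp)])
  let U : CircleL2 ≃ₗᵢ[ℂ] CircleL2 := (fourierBasis (T := (1 : ℝ))).repr.trans b'.repr.symm
  have hU1 : ∀ k : ℤ, U (toL2 (fourier k)) = toL2 (fourier (k + 1)) := by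
    intro k
    show b'.repr.symm ((fourierBasis (T := (1 : ℝ))).repr (fourierLp (T := (1 : ℝ)) 2 k)) = _
    rw [← congrFun coe_fourierBasis k, HilbertBasis.repr_self, HilbertBasis.repr_symm_single]
    simp [b', HilbertBasis.coe_mk, toL2_fourier]
  have hU : ∀ φ, U (toL2 φ) = toL2 (fourier 1 * φ) := by
    intro φ
    have := ContinuousLinearMap.ext_on (f := (U : CircleL2 →L[ℂ] CircleL2).comp toL2)
      (g := toL2.comp (ContinuousLinearMap.mul ℂ C(AddCircle (1 : ℝ), ℂ) (fourier 1)))
      (s := Set.range (fourier (T := (1 : ℝ))))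
      (by
        rw [dense_iff_closure_eq, ← Submodule.topologicalClosure_coe, span_fourier_closure_eq_top]
        rfl)
      (by
        rintro _ ⟨k, rfl⟩
        show U (toL2 (fourier k)) = toL2 (fourier 1 * fourier k)
        rw [hU1, fourier_mul_fourier, add_comm])
    exact DFunLike.congr_fun this φ
  have hUsymm : ∀ φ, U⁻¹ (toL2 φ) = toL2 (fourier (-1) * φ) := by
    intro φ
    show U.symm (toL2 φ) = _
    rw [LinearIsometryEquiv.symm_apply_eq, hU, ← mul_assoc, fourier_mul_fourier]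
    refine congrArg toL2 (ContinuousMap.ext fun t => ?_)
    simp
  refine ⟨U, fun k => ?_⟩
  induction k using Int.induction_on with
  | zero => intro φ; refine congrArg toL2 (ContinuousMap.ext fun t => ?_); simp
  | succ n ih =>
    intro φ
    rw [LevelSys.zpow_add_apply, zpow_one, hU, ih, ← mul_assoc, fourier_mul_fourier]
  | pred n ih =>
    intro φ
    rw [sub_eq_add_neg, LevelSys.zpow_add_apply, zpow_neg_one, hUsymm, ih, ← mul_assoc,
      fourier_mul_fourier]

/-- A level system on the circle with a cyclic vector having orthonormal complete orbit. -/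
theorem exists_circle_system (B : Blocks) :
    ∃ (U : CircleL2 ≃ₗᵢ[ℂ] CircleL2) (g : ℕ → ℕ → CircleL2) (v : CircleL2),
      LevelSys B U g ∧ v ∈ closure (Submodule.span ℂ (Set.range (orb B U g)) : Set CircleL2) ∧
      Orthonormal ℂ (fun k : ℤ => (U ^ k) v) ∧
      ∀ w : CircleL2, w ∈ closure
        (Submodule.span ℂ (Set.range fun k : ℤ => (U ^ k) v) : Set CircleL2) := by
  obtain ⟨U, hU⟩ := exists_mul_fourier
  have hv : ∀ k : ℤ, (U ^ k) (toL2 1) = fourierLp (T := (1 : ℝ)) 2 k := fun k => by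
    rw [hU, mul_one, toL2_fourier]
  refine ⟨U, fun n j => toL2 (fourier (-(j : ℤ)) * B.h n), toL2 1, ⟨?_, ?_, ?_⟩, ?_, ?_, ?_⟩
  · intro n j l hj hl
    rw [toL2, ContinuousMap.inner_toLp]
    have e : ∀ t, (fourier (-(l : ℤ)) * B.h n : C(AddCircle (1 : ℝ), ℂ)) t
        * conj ((fourier (-(j : ℤ)) * B.h n : C(AddCircle (1 : ℝ), ℂ)) t)
        = (B.M n : ℂ)⁻¹ * (fourier ((j : ℤ) - l) t * ((B.rho t / B.R 0 n t : ℝ) : ℂ)) := by
      intro t
      rw [ContinuousMap.mul_apply, ContinuousMap.mul_apply, map_mul, ← fourier_neg, neg_neg,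
        sub_eq_add_neg, fourier_add]
      linear_combination
        (fourier (j : ℤ) t * fourier (-(l : ℤ)) t) * B.conj_h_mul_h n t
    simp_rw [e]
    rw [integral_const_mul, B.integral_tail n]
    · by_cases h : j = l
      · simp [h]
      · rw [if_neg (by omega), if_neg h, mul_zero]
    · by_cases h : j = l
      · exact Or.inl (by omega)
      · refine Or.inr fun hd => ?_
        have := Int.eq_zero_of_abs_lt_dvd hd (abs_lt.2 ⟨by omega, by omega⟩)
        omega
  · intro n j hj
    simp only [← map_smul, ← map_sum]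
    congr 1
    ext t
    simp only [ContinuousMap.mul_apply, ContinuousMap.sum_apply, ContinuousMap.smul_apply,
      smul_eq_mul]
    have hh : B.h n t = B.Q n t * B.h (n + 1) t := by
      show B.h0 t / (∏ m ∈ range n, B.Q m t)
        = B.Q n t * (B.h0 t / ∏ m ∈ range (n + 1), B.Q m t)
      rw [Finset.prod_range_succ]
      have h1 : ∏ m ∈ range n, B.Q m t ≠ 0 :=
        Finset.prod_ne_zero_iff.2 fun m _ => B.Q_ne_zero m t
      field_simp [B.Q_ne_zero n t]
    rw [hh, B.Q_apply, Finset.sum_mul, Finset.mul_sum]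
    refine sum_congr rfl fun i _ => ?_
    rw [Nat.cast_add, Nat.cast_mul, neg_add, fourier_add]
    ring
  · intro n j _
    rw [← zpow_one U, hU, ← mul_assoc, fourier_mul_fourier]
    congr 3
    push_cast; ring
  · let A : C(AddCircle (1 : ℝ), ℂ) →L[ℂ] CircleL2 :=
      toL2.comp (ContinuousLinearMap.mul ℂ C(AddCircle (1 : ℝ), ℂ) B.h0)
    have hne : ∀ t, B.h0 t ≠ 0 := fun t => by
      simp [Blocks.h0, (Real.sqrt_pos.2 (B.rho_pos t)).ne']
    let inv : C(AddCircle (1 : ℝ), ℂ) := ⟨fun t => (B.h0 t)⁻¹, (map_continuous B.h0).inv₀ hne⟩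
    have hA : toL2 1 = A inv := by
      show toL2 1 = toL2 (B.h0 * inv)
      congr 1; ext t; simp [inv, hne]
    have hin : inv ∈ closure
        (Submodule.span ℂ (Set.range (fourier (T := (1 : ℝ)))) : Set C(AddCircle (1 : ℝ), ℂ)) := by
      rw [← Submodule.topologicalClosure_coe, span_fourier_closure_eq_top]; trivial
    rw [hA]
    refine closure_mono ?_ (image_closure_subset_closure_image A.continuous ⟨inv, hin, rfl⟩)
    show ((Submodule.map (A : C(AddCircle (1 : ℝ), ℂ) →ₗ[ℂ] CircleL2) (Submodule.span ℂ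
      (Set.range (fourier (T := (1 : ℝ)))))) : Set CircleL2) ⊆ _
    rw [Submodule.map_span, SetLike.coe_subset_coe, Submodule.span_le]
    rintro _ ⟨_, ⟨k, rfl⟩, rfl⟩
    refine Submodule.subset_span ⟨⟨0, ⟨⟨0, B.M_pos 0⟩, k⟩⟩, ?_⟩
    show (U ^ k) (toL2 (fourier (-((0 : ℕ) : ℤ)) * B.h 0)) = toL2 (B.h0 * fourier k)
    rw [hU]
    congr 1; ext t; simp [Blocks.h, mul_comm]
  · simp only [hv]; exact orthonormal_fourier
  · intro w
    simp only [hv]
    rw [← Submodule.topologicalClosure_coe, span_fourierLp_closure_eq_top (by simp)]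
    trivial

/-- Every complete level system has a vector with orthonormal orbit spanning all cells. -/
theorem exists_cyclic {B : Blocks} {H : Type*} [NormedAddCommGroup H] [InnerProductSpace ℂ H]
    [CompleteSpace H] {U : H ≃ₗᵢ[ℂ] H} {g : ℕ → ℕ → H} (S : LevelSys B U g) :
    ∃ f : H, f ∈ closure (Submodule.span ℂ (Set.range (orb B U g)) : Set H) ∧
      Orthonormal ℂ (fun k : ℤ => (U ^ k) f) ∧
      ∀ a, orb B U g a ∈ closure
        (Submodule.span ℂ (Set.range fun k : ℤ => (U ^ k) f) : Set H) := by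
  obtain ⟨U', g', v, S', hv, horth, hfull⟩ := exists_circle_system B
  exact exists_transfer S S' v hv horth hfull

end Vale.Agent.P130.Morse
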