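import Mathlib

/-! # P130 — a Morse extension with a simple Lebesgue component: data

`Blocks` is a sequence of sign blocks whose trigonometric polynomials are uniformly flat;
`LevelSys` records the properties shared by the cylinder functions of the extension and their
images on the circle. -/

noncomputable section

open scoped InnerProductSpace

namespace Vale.Agent.P130.Morse

/-- Sign blocks with flat polynomials. -/
structure Blocks where
  len : ℕ → ℕ
  two_le : ∀ n, 2 ≤ len n
  sgn : ℕ → ℕ → ℝ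
  sgn_sq : ∀ n i, sgn n i = 1 ∨ sgn n i = -1
  flat : ∀ n (z : ℂ), ‖z‖ = 1 →
    |‖∑ i ∈ Finset.range (len n), (sgn n i : ℂ) * z ^ i‖ ^ 2 / len n - 1| ≤ (1 / 2) ^ (n + 2)

namespace Blocks

variable (B : Blocks)

/-- The heights `M n = len 0 * ... * len (n-1)`. -/
def M : ℕ → ℕ
  | 0 => 1
  | n + 1 => M n * B.len n

theorem M_pos : ∀ n, 0 < B.M n
  | 0 => one_pos
  | n + 1 => Nat.mul_pos (M_pos n) (lt_of_lt_of_le two_pos (B.two_le n))

theorem M_dvd {n m : ℕ} (h : n ≤ m) : B.M n ∣ B.M m := by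
  induction m, h using Nat.le_induction with
  | base => exact dvd_rfl
  | succ m _ ih => exact Dvd.dvd.mul_right ih _

theorem M_le {n m : ℕ} (h : n ≤ m) : B.M n ≤ B.M m :=
  Nat.le_of_dvd (B.M_pos m) (B.M_dvd h)

theorem two_pow_le_M : ∀ n, 2 ^ n ≤ B.M n
  | 0 => le_rfl
  | n + 1 => by
      rw [pow_succ]
      exact Nat.mul_le_mul (two_pow_le_M n) (B.two_le n)

theorem tendsto_M : Filter.Tendsto B.M Filter.atTop Filter.atTop :=
  Filter.tendsto_atTop_mono B.two_pow_le_M (tendsto_pow_atTop_atTop_of_one_lt (by norm_num))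

theorem sgn_mul_self (n i : ℕ) : B.sgn n i * B.sgn n i = 1 := by
  rcases B.sgn_sq n i with h | h <;> rw [h] <;> norm_num

/-- The sign of the word at position `j` of level `n`. -/
def word : ℕ → ℕ → ℝ
  | 0, _ => 1
  | n + 1, j => word n (j % B.M n) * B.sgn n (j / B.M n)

theorem word_mul_self : ∀ n j, B.word n j * B.word n j = 1
  | 0, _ => one_mul 1
  | n + 1, j => by
      rw [word, mul_mul_mul_comm, word_mul_self n, B.sgn_mul_self, one_mul]

theorem word_sq (n j : ℕ) : B.word n j = 1 ∨ B.word n j = -1 :=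
  mul_self_eq_one_iff.1 (B.word_mul_self n j)

theorem word_extend {n j i : ℕ} (hj : j < B.M n) :
    B.word (n + 1) (j + i * B.M n) = B.word n j * B.sgn n i := by
  rw [word, Nat.add_mul_mod_self_right, Nat.mod_eq_of_lt hj, Nat.add_mul_div_right _ _ (B.M_pos n),
    Nat.div_eq_of_lt hj, zero_add]

theorem extend_lt {n j i : ℕ} (hj : j < B.M n) (hi : i < B.len n) :
    j + i * B.M n < B.M (n + 1) := by
  rw [M]
  calc j + i * B.M n < B.M n + i * B.M n := by omega
    _ = (i + 1) * B.M n := by ring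
    _ ≤ B.len n * B.M n := Nat.mul_le_mul_right _ hi
    _ = B.M n * B.len n := Nat.mul_comm _ _

end Blocks

/-- Vectors indexed by the cells of all levels, with a unitary lowering the cell by one. -/
structure LevelSys (B : Blocks) {H : Type*} [NormedAddCommGroup H] [InnerProductSpace ℂ H]
    (U : H ≃ₗᵢ[ℂ] H) (g : ℕ → ℕ → H) : Prop where
  gram : ∀ n j l, j < B.M n → l < B.M n →
    ⟪g n j, g n l⟫_ℂ = if j = l then ((B.M n : ℂ))⁻¹ else 0
  refine : ∀ n j, j < B.M n →
    g n j = ∑ i ∈ Finset.range (B.len n), (B.sgn n i : ℂ) • g (n + 1) (j + i * B.M n)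
  step : ∀ n j, j + 1 < B.M n → U (g n (j + 1)) = g n j

end Vale.Agent.P130.Morse
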