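import Vale.Agent.P130.Morse.Space
import Vale.Agent.P130.Morse.Circle

/-! # P130 — spectral decomposition of the Morse extension -/

noncomputable section

open MeasureTheory Set Function
open scoped InnerProductSpace ComplexConjugate

namespace Vale.Agent.P130.Morse

variable {B : Blocks}

/-- The sign of the fibre coordinate. -/
def sigma (a : Bool) : ℂ := if a then -1 else 1

theorem sigma_mul_self (a : Bool) : sigma a * sigma a = 1 := by cases a <;> simp [sigma]

theorem conj_sigma (a : Bool) : conj (sigma a) = sigma a := by cases a <;> simp [sigma]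

theorem integral_mu_mul (u : Om B → ℂ) (w : Bool → ℂ) :
    ∫ p, u p.1 * w p.2 ∂(mu B) = (∫ x, u x ∂(nu B)) * ((w false + w true) / 2) := by
  rw [mu, integral_prod_mul]
  congr 1
  rw [integral_fintype Integrable.of_finite, Fintype.sum_bool]
  simp only [Measure.real, coin_singleton, ENNReal.toReal_inv, ENNReal.toReal_ofNat,
    Complex.real_smul]
  push_cast
  ring

theorem integral_nu_level (n : ℕ) (h : ℕ → ℂ) :
    ∫ x, h (x.1 n) ∂(nu B) = (∑ j ∈ Finset.range (B.M n), h j) / B.M n := by
  have e : (fun x : Om B => h (x.1 n))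
      = fun x => ∑ j ∈ Finset.range (B.M n), {y : Om B | y.1 n = j}.indicator (fun _ => h j) x := by
    funext x
    refine Eq.symm ((Finset.sum_eq_single_of_mem (x.1 n) (Finset.mem_range.2 (x.lt n))
      fun j _ hj => ?_).trans ?_)
    · exact indicator_of_notMem (fun h : x.1 n = j => hj h.symm) _
    · exact indicator_of_mem (show x ∈ {y : Om B | y.1 n = x.1 n} from rfl) (fun _ => h (x.1 n))
  rw [e, integral_finsetSum _ fun j _ =>
    (integrable_const _).indicator (Om.measurableSet_cyl n j), Finset.sum_div]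
  refine Finset.sum_congr rfl fun j hj => ?_
  rw [integral_indicator_const _ (Om.measurableSet_cyl n j), Measure.real,
    nu_cyl B (Finset.mem_range.1 hj), ENNReal.toReal_ofReal (by positivity), Complex.real_smul]
  push_cast
  ring

/-- The cylinder functions. -/
def cellFun (n j : ℕ) (p : Space B) : ℂ :=
  (if p.1.1 n = j then (B.word n j : ℂ) else 0) * sigma p.2

theorem memLp_of_norm_le {u : Space B → ℂ} (hm : Measurable u) (h : ∀ p, ‖u p‖ ≤ 1) :
    MemLp u 2 (mu B) :=
  MemLp.of_bound hm.aestronglyMeasurable 1 (Filter.Eventually.of_forall h)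

theorem measurable_cellFun (n j : ℕ) : Measurable (cellFun (B := B) n j) :=
  (((Measurable.of_discrete (f := fun k : ℕ => if k = j then (B.word n j : ℂ) else 0)).comp
    (Om.measurable_coord n)).comp measurable_fst).mul
    ((Measurable.of_discrete (f := sigma)).comp measurable_snd)

theorem memLp_cellFun (n j : ℕ) : MemLp (cellFun (B := B) n j) 2 (mu B) :=
  memLp_of_norm_le (measurable_cellFun n j) fun p => by
    unfold cellFun sigma
    rcases B.word_sq n j with h | h <;> split_ifs <;> simp [h]

/-- The cylinder vectors. -/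
def cellVec (n j : ℕ) : Lp ℂ 2 (mu B) := (memLp_cellFun n j).toLp _

variable (B) in
/-- The Koopman operator of the extension. -/
def koop : Lp ℂ 2 (mu B) ≃ₗᵢ[ℂ] Lp ℂ 2 (mu B) :=
  LinearIsometryEquiv.ofSurjective
    (Lp.compMeasurePreservingₗᵢ ℂ (shift B) (measurePreserving_shift B)) fun u => by
      refine ⟨Lp.compMeasurePreserving (shift B).symm
        ((measurePreserving_shift B).symm (shift B)) u, Lp.ext ?_⟩
      have h1 := Lp.coeFn_compMeasurePreserving
        (Lp.compMeasurePreserving (shift B).symm ((measurePreserving_shift B).symm (shift B)) u)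
        (measurePreserving_shift B)
      have h2 := (measurePreserving_shift B).quasiMeasurePreserving.ae_eq
        (Lp.coeFn_compMeasurePreserving u ((measurePreserving_shift B).symm (shift B)))
      refine h1.trans (h2.trans ?_)
      refine Filter.Eventually.of_forall fun p => ?_
      show u ((shift B).symm (shift B p)) = u p
      rw [MeasurableEquiv.symm_apply_apply]

theorem coeFn_koop (u : Lp ℂ 2 (mu B)) : koop B u =ᵐ[mu B] fun p => u (shift B p) :=
  Lp.coeFn_compMeasurePreserving u (measurePreserving_shift B)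

theorem measurePreserving_perm {X : Type*} [MeasurableSpace X] {μ : Measure X} {T : X ≃ᵐ X}
    (hT : MeasurePreserving T μ μ) (k : ℤ) :
    MeasurePreserving ⇑((T.toEquiv : Equiv.Perm X) ^ k) μ μ := by
  induction k using Int.induction_on with
  | zero => exact MeasurePreserving.id μ
  | succ n ih => rw [zpow_add_one, Equiv.Perm.coe_mul]; exact ih.comp hT
  | pred n ih => rw [zpow_sub_one, Equiv.Perm.coe_mul]; exact ih.comp (hT.symm T)

theorem coeFn_koop_zpow (k : ℤ) : ∀ u : Lp ℂ 2 (mu B),
    (koop B ^ k) u =ᵐ[mu B] fun p => u (((shift B).toEquiv : Equiv.Perm (Space B)) ^ k <| p) := by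
  induction k using Int.induction_on with
  | zero => intro u; exact Filter.EventuallyEq.rfl
  | succ n ih =>
    intro u
    rw [LevelSys.zpow_add_apply, zpow_one]
    refine (ih (koop B u)).trans
      (((measurePreserving_perm (measurePreserving_shift B) n).quasiMeasurePreserving.ae_eq
        (coeFn_koop u)).trans (Filter.Eventually.of_forall fun p => ?_))
    rw [add_comm, zpow_add, zpow_one]
    rfl
  | pred n ih =>
    intro u
    rw [sub_eq_add_neg, LevelSys.zpow_add_apply]
    have hinv : (koop B ^ (-1 : ℤ)) u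
        =ᵐ[mu B] fun p => u ((shift B).symm p) := by
      set v := (koop B ^ (-1 : ℤ)) u with hv
      have hu : koop B v = u := by
        rw [hv, zpow_neg_one]; exact (koop B).apply_symm_apply u
      rw [← hu]
      refine Filter.EventuallyEq.symm ?_
      refine (((measurePreserving_shift B).symm (shift B)).quasiMeasurePreserving.ae_eq
        (coeFn_koop v)).trans (Filter.Eventually.of_forall fun p => ?_)
      show v (shift B ((shift B).symm p)) = v p
      rw [MeasurableEquiv.apply_symm_apply]
    refine (ih _).trans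
      (((measurePreserving_perm (measurePreserving_shift B) (-n)).quasiMeasurePreserving.ae_eq
        hinv).trans (Filter.Eventually.of_forall fun p => ?_))
    rw [add_comm, zpow_add, zpow_neg_one]
    rfl

theorem inner_toLp {u v : Space B → ℂ} (hu : MemLp u 2 (mu B)) (hv : MemLp v 2 (mu B)) :
    ⟪hu.toLp u, hv.toLp v⟫_ℂ = ∫ p, conj (u p) * v p ∂(mu B) := by
  rw [L2.inner_def]
  refine integral_congr_ae ?_
  filter_upwards [hu.coeFn_toLp, hv.coeFn_toLp] with p h1 h2
  rw [h1, h2, RCLike.inner_apply, mul_comm]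

theorem levelSys : LevelSys B (koop B) (cellVec (B := B)) where
  gram n j l hj hl := by
    rw [cellVec, cellVec, inner_toLp]
    have e : (fun p : Space B => conj (cellFun n j p) * cellFun n l p)
        = fun p => (fun x : Om B => (fun k : ℕ => (if k = j then (B.word n j : ℂ) else 0)
            * (if k = l then (B.word n l : ℂ) else 0)) (x.1 n)) p.1 * (fun _ => (1 : ℂ)) p.2 := by
      funext p
      have hc : conj (if p.1.1 n = j then (B.word n j : ℂ) else 0)
          = if p.1.1 n = j then (B.word n j : ℂ) else 0 := by split_ifs <;> simp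
      rw [cellFun, cellFun, map_mul, conj_sigma, hc, mul_mul_mul_comm, sigma_mul_self]
    rw [e]
    refine (integral_mu_mul (fun x : Om B => (fun k : ℕ => (if k = j then (B.word n j : ℂ) else 0)
      * (if k = l then (B.word n l : ℂ) else 0)) (x.1 n)) (fun _ => (1 : ℂ))).trans ?_
    rw [integral_nu_level n (fun k : ℕ => (if k = j then (B.word n j : ℂ) else 0)
      * (if k = l then (B.word n l : ℂ) else 0)), Finset.sum_eq_single_of_mem j
        (Finset.mem_range.2 hj) fun k _ hk => by simp [hk]]
    rcases eq_or_ne j l with rfl | h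
    · simp only [↓reduceIte]
      rw [← Complex.ofReal_mul, B.word_mul_self]
      push_cast; ring
    · simp [h]
  refine n j hj := by
    apply Lp.ext
    refine (MemLp.coeFn_toLp _).trans (Filter.EventuallyEq.symm ?_)
    refine (Lp.coeFn_finsetSum _ _).trans ?_
    have hs : ∀ i ∈ Finset.range (B.len n),
        (((B.sgn n i : ℂ) • cellVec (n + 1) (j + i * B.M n) : Lp ℂ 2 (mu B)) : Space B → ℂ)
          =ᵐ[mu B] (B.sgn n i : ℂ) • cellFun (B := B) (n + 1) (j + i * B.M n) := fun i _ =>
      (Lp.coeFn_smul _ _).trans ((MemLp.coeFn_toLp _).const_smul _)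
    refine Filter.EventuallyEq.trans (eventuallyEq_sum hs)
      (Filter.Eventually.of_forall fun p => ?_)
    simp only [Finset.sum_apply, Pi.smul_apply, smul_eq_mul, cellFun]
    simp only [← mul_assoc, ← Finset.sum_mul]
    congr 1
    have hmod : p.1.1 (n + 1) % B.M n = p.1.1 n := (p.1.2 n).2
    by_cases h : p.1.1 n = j
    · rw [if_pos h]
      set i := p.1.1 (n + 1) / B.M n with hi
      have e : p.1.1 (n + 1) = j + i * B.M n := by
        rw [← h, ← hmod, hi, mul_comm, Nat.mod_add_div]
      have hil : i < B.len n := by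
        rw [hi, Nat.div_lt_iff_lt_mul (B.M_pos n), mul_comm]
        exact p.1.lt (n + 1)
      rw [Finset.sum_eq_single_of_mem i (Finset.mem_range.2 hil) fun k _ hk => ?_, if_pos e,
        B.word_extend hj, Complex.ofReal_mul, ← mul_assoc, mul_comm _ (B.word n j : ℂ), mul_assoc,
        ← Complex.ofReal_mul, B.sgn_mul_self, Complex.ofReal_one, mul_one]
      rw [if_neg, mul_zero]
      rw [e]
      intro hh
      exact hk (Nat.eq_of_mul_eq_mul_right (B.M_pos n) (Nat.add_left_cancel hh)).symm
    · rw [if_neg h, Finset.sum_eq_zero fun k _ => ?_]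
      rw [if_neg, mul_zero]
      intro hh
      apply h
      rw [← hmod, hh, Nat.add_mul_mod_self_right, Nat.mod_eq_of_lt hj]
  step n j hj := by
    apply Lp.ext
    refine (coeFn_koop _).trans (((measurePreserving_shift B).quasiMeasurePreserving.ae_eq
      (MemLp.coeFn_toLp (memLp_cellFun n (j + 1)))).trans
      (Filter.EventuallyEq.trans (Filter.Eventually.of_forall fun p => ?_)
        (MemLp.coeFn_toLp (memLp_cellFun n j)).symm))
    show cellFun n (j + 1) (shift B p) = cellFun n j p
    obtain ⟨x, a⟩ := p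
    show (if (x.succ).1 n = j + 1 then (B.word n (j + 1) : ℂ) else 0) * sigma (flip B x a)
      = (if x.1 n = j then (B.word n j : ℂ) else 0) * sigma a
    by_cases h : x.1 n = j
    · rw [Om.succ_coord (by omega), if_pos (by omega), if_pos h]
      have hj' : x.1 n + 1 < B.M n := by omega
      have hf := x.flips_iff hj'
      rw [h] at hf
      unfold flip
      rcases B.word_sq n j with h1 | h1 <;> rcases B.word_sq n (j + 1) with h2 | h2 <;>
        rw [h1, h2] at hf <;> norm_num at hf <;> cases a <;> simp [hf, h1, h2, sigma]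
    · have : (x.succ).1 n ≠ j + 1 := by
        intro hh
        have : (x.1 n + 1) % B.M n = j + 1 := hh
        rcases Nat.lt_or_ge (x.1 n + 1) (B.M n) with h' | h'
        · rw [Nat.mod_eq_of_lt h'] at this; omega
        · rw [show x.1 n + 1 = B.M n by have := x.lt n; omega, Nat.mod_self] at this; omega
      rw [if_neg this, if_neg h, zero_mul, zero_mul]

/-! ## Eigenfunctions -/

variable (B) in
/-- The eigenvalues. -/
abbrev Eig := {z : ℂ // ∃ n, z ^ B.M n = 1}

instance : Countable (Eig B) := by
  have h : {z : ℂ | ∃ n, z ^ B.M n = 1}.Countable := by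
    simp only [ofPred_exists]
    refine countable_iUnion fun n => Set.Finite.countable ?_
    refine (Polynomial.nthRootsFinset (B.M n) (1 : ℂ)).finite_toSet.subset fun z hz => ?_
    exact (Polynomial.mem_nthRootsFinset (B.M_pos n) _).2 hz
  exact h.to_subtype

/-- The unit eigenvalue. -/
def eigOne : Eig B := ⟨1, 0, one_pow _⟩

/-- The eigenfunctions. -/
def eigFun (z : Eig B) (p : Space B) : ℂ := z.1 ^ p.1.1 z.2.choose

theorem eigFun_eq (z : Eig B) {n : ℕ} (hn : z.1 ^ B.M n = 1) (p : Space B) :
    eigFun z p = z.1 ^ p.1.1 n := by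
  have key : ∀ a b, a ≤ b → z.1 ^ B.M a = 1 → z.1 ^ p.1.1 b = z.1 ^ p.1.1 a := fun a b hab ha => by
    rw [pow_eq_pow_mod _ ha, p.1.mod_eq hab]
  unfold eigFun
  rw [← key _ _ (le_max_left z.2.choose n) z.2.choose_spec, key _ _ (le_max_right _ n) hn]

theorem eigFun_one : eigFun (eigOne (B := B)) = 1 := by
  funext p
  rw [eigFun]
  exact one_pow _

theorem norm_eig (z : Eig B) : ‖z.1‖ = 1 :=
  Complex.norm_eq_one_of_pow_eq_one z.2.choose_spec (B.M_pos _).ne'

theorem eigFun_shift (z : Eig B) (p : Space B) :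
    eigFun z (shift B p) = z.1 * eigFun z p := by
  unfold eigFun
  show z.1 ^ ((p.1.1 z.2.choose + 1) % B.M z.2.choose) = _
  rw [← pow_eq_pow_mod _ z.2.choose_spec, pow_succ']

theorem memLp_eigFun (z : Eig B) : MemLp (eigFun z) 2 (mu B) :=
  memLp_of_norm_le (((Measurable.of_discrete (f := fun k : ℕ => z.1 ^ k)).comp
    (Om.measurable_coord _)).comp measurable_fst) fun p => by
      rw [eigFun, norm_pow, norm_eig, one_pow]

theorem integral_eig_eig (z w : Eig B) :
    ∫ p, conj (eigFun z p) * eigFun w p ∂(mu B) = if z = w then 1 else 0 := by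
  obtain ⟨a, ha⟩ := z.2
  obtain ⟨b, hb⟩ := w.2
  have ha' : z.1 ^ B.M (max a b) = 1 := by
    obtain ⟨c, hc⟩ := B.M_dvd (le_max_left a b)
    rw [hc, pow_mul, ha, one_pow]
  have hb' : w.1 ^ B.M (max a b) = 1 := by
    obtain ⟨c, hc⟩ := B.M_dvd (le_max_right a b)
    rw [hc, pow_mul, hb, one_pow]
  set n := max a b
  have e : (fun p : Space B => conj (eigFun z p) * eigFun w p)
      = fun p => (fun x : Om B => (conj z.1 * w.1) ^ x.1 n) p.1 * (fun _ => (1 : ℂ)) p.2 := by
    funext p
    rw [eigFun_eq z ha', eigFun_eq w hb', map_pow]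
    simp only [mul_pow, mul_one]
  rw [e]
  refine (integral_mu_mul (fun x : Om B => (conj z.1 * w.1) ^ x.1 n) (fun _ => (1 : ℂ))).trans ?_
  rw [integral_nu_level n fun k => (conj z.1 * w.1) ^ k]
  have hzz : conj z.1 * z.1 = 1 := by rw [Complex.conj_mul', norm_eig]; simp
  have hM : (B.M n : ℂ) ≠ 0 := by exact_mod_cast (B.M_pos n).ne'
  by_cases h : z = w
  · subst h
    simp only [hzz, one_pow, Finset.sum_const, Finset.card_range, nsmul_eq_mul, mul_one, ↓reduceIte]
    field_simp
    ring
  · have hne : conj z.1 * w.1 ≠ 1 := fun h1 => h (Subtype.ext (by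
      calc z.1 = z.1 * (conj z.1 * w.1) := by rw [h1, mul_one]
        _ = (conj z.1 * z.1) * w.1 := by ring
        _ = w.1 := by rw [hzz, one_mul]))
    rw [geom_sum_eq hne, mul_pow, ← map_pow, ha', hb', if_neg h]
    simp

theorem inner_eig_cell (z : Eig B) (n j : ℕ) :
    ⟪(memLp_eigFun z).toLp _, cellVec n j⟫_ℂ = 0 := by
  rw [cellVec, inner_toLp]
  have e : (fun p : Space B => conj (eigFun z p) * cellFun n j p)
      = fun p => (fun x : Om B => conj (z.1 ^ x.1 z.2.choose)
          * (if x.1 n = j then (B.word n j : ℂ) else 0)) p.1 * sigma p.2 := by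
    funext p
    rw [cellFun, eigFun, mul_assoc]
  rw [e]
  refine (integral_mu_mul (fun x : Om B => conj (z.1 ^ x.1 z.2.choose)
    * (if x.1 n = j then (B.word n j : ℂ) else 0)) sigma).trans ?_
  simp [sigma]

theorem koop_zpow_eig (z : Eig B) (k : ℤ) :
    (koop B ^ k) ((memLp_eigFun z).toLp _) = z.1 ^ k • (memLp_eigFun z).toLp _ := by
  have hz : z.1 ≠ 0 := fun h => by simpa [h] using norm_eig z
  have h1 : koop B ((memLp_eigFun z).toLp _) = z.1 • (memLp_eigFun z).toLp _ := by
    apply Lp.ext
    refine (coeFn_koop _).trans (((measurePreserving_shift B).quasiMeasurePreserving.ae_eq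
      (MemLp.coeFn_toLp _)).trans (Filter.EventuallyEq.symm ((Lp.coeFn_smul _ _).trans
        ((MemLp.coeFn_toLp _).const_smul _ |>.trans
          (Filter.Eventually.of_forall fun p => (eigFun_shift z p).symm)))))
  induction k using Int.induction_on with
  | zero => rw [zpow_zero, zpow_zero, one_smul]; rfl
  | succ n ih =>
    rw [LevelSys.zpow_add_apply, zpow_one, h1, map_smul, ih, smul_smul, zpow_add₀ hz, zpow_one,
      mul_comm]
  | pred n ih =>
    have h2 : (koop B ^ (-1 : ℤ)) ((memLp_eigFun z).toLp _)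
        = z.1⁻¹ • (memLp_eigFun z).toLp _ := by
      rw [zpow_neg_one]
      show (koop B).symm _ = _
      rw [LinearIsometryEquiv.symm_apply_eq, map_smul, h1, smul_smul, inv_mul_cancel₀ hz, one_smul]
    rw [sub_eq_add_neg, LevelSys.zpow_add_apply, h2, map_smul, ih, smul_smul, zpow_add₀ hz,
      zpow_neg_one, mul_comm]

theorem inner_eig_orb (z : Eig B) (a : Orb B) :
    ⟪(memLp_eigFun z).toLp _, orb B (koop B) cellVec a⟫_ℂ = 0 := by
  have hz : z.1 ≠ 0 := fun h => by simpa [h] using norm_eig z
  have h := LinearIsometryEquiv.inner_map_map (koop B ^ a.2.2) ((memLp_eigFun z).toLp _)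
    (cellVec a.1 a.2.1)
  rw [koop_zpow_eig, inner_eig_cell, inner_smul_left, mul_eq_zero] at h
  exact h.resolve_left ((map_ne_zero _).2 (zpow_ne_zero _ hz))

theorem inner_eq_zero_of_mem_closure {H : Type*} [NormedAddCommGroup H] [InnerProductSpace ℂ H]
    {s : Set H} {u v : H} (hu : u ∈ closure (Submodule.span ℂ s : Set H))
    (h : ∀ w ∈ s, ⟪v, w⟫_ℂ = 0) : ⟪v, u⟫_ℂ = 0 := by
  have hcl : IsClosed {w : H | ⟪v, w⟫_ℂ = 0} :=
    isClosed_eq (continuous_const.inner continuous_id) continuous_const
  refine closure_minimal (fun w hw => ?_) hcl hu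
  induction hw using Submodule.span_induction with
  | mem x hx => exact h x hx
  | zero => exact inner_zero_right _
  | add x y _ _ h1 h2 => show ⟪v, x + y⟫_ℂ = 0; rw [inner_add_right, h1, h2, add_zero]
  | smul c x _ h1 => show ⟪v, c • x⟫_ℂ = 0; rw [inner_smul_right, h1, mul_zero]

theorem indicator_level (n j : ℕ) (hj : j < B.M n) (p : Space B) :
    (if p.1.1 n = j then (1 : ℂ) else 0) = (∑ k ∈ Finset.range (B.M n),
      (Complex.exp (2 * Real.pi * Complex.I / B.M n) ^ k) ^ p.1.1 n *
        conj ((Complex.exp (2 * Real.pi * Complex.I / B.M n) ^ k) ^ j)) / B.M n := by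
  set ω := Complex.exp (2 * Real.pi * Complex.I / B.M n)
  have hω : IsPrimitiveRoot ω (B.M n) := Complex.isPrimitiveRoot_exp _ (B.M_pos n).ne'
  have hn1 : ‖ω‖ = 1 := Complex.norm_eq_one_of_pow_eq_one hω.pow_eq_one (B.M_pos n).ne'
  set c := ω ^ p.1.1 n * conj (ω ^ j) with hc
  have e : ∀ k, (ω ^ k) ^ p.1.1 n * conj ((ω ^ k) ^ j) = c ^ k := fun k => by
    rw [hc, mul_pow, ← map_pow, ← pow_mul, ← pow_mul, ← pow_mul, ← pow_mul, mul_comm k, mul_comm k]
  simp only [e]
  have hconj : conj (ω ^ j) * ω ^ j = 1 := by rw [Complex.conj_mul', norm_pow, hn1]; simp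
  have hM : (B.M n : ℂ) ≠ 0 := by exact_mod_cast (B.M_pos n).ne'
  by_cases h : p.1.1 n = j
  · rw [if_pos h]
    have : c = 1 := by rw [hc, h, mul_comm, hconj]
    simp [this, hM]
  · have hcM : c ^ B.M n = 1 := by
      rw [hc, mul_pow, ← map_pow, ← pow_mul, ← pow_mul, pow_mul', pow_mul', hω.pow_eq_one,
        one_pow, one_pow, map_one, mul_one]
    rw [if_neg h, geom_sum_eq, hcM]
    · simp
    · intro hc1
      apply h (hω.pow_inj (p.1.lt n) hj ?_)
      calc ω ^ p.1.1 n = ω ^ p.1.1 n * (conj (ω ^ j) * ω ^ j) := by rw [hconj, mul_one]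
        _ = c * ω ^ j := by rw [hc, mul_assoc]
        _ = ω ^ j := by rw [hc1, one_mul]

theorem complete_of_orth {g : Space B → ℂ} (hg : MemLp g 2 (mu B))
    (h1 : ∀ z, ∫ p, conj (eigFun z p) * g p ∂(mu B) = 0)
    (h2 : ∀ n j, j < B.M n → ∫ p, conj (cellFun n j p) * g p ∂(mu B) = 0) :
    g =ᵐ[mu B] 0 := by
  have hi : Integrable g (mu B) := hg.integrable one_le_two
  have hlev : ∀ n j, j < B.M n →
      ∫ p, (if p.1.1 n = j then (1 : ℂ) else 0) * g p ∂(mu B) = 0 := by
    intro n j hj
    set ω := Complex.exp (2 * Real.pi * Complex.I / B.M n) with hωd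
    have hω : IsPrimitiveRoot ω (B.M n) := Complex.isPrimitiveRoot_exp _ (B.M_pos n).ne'
    have hn1 : ‖ω‖ = 1 := Complex.norm_eq_one_of_pow_eq_one hω.pow_eq_one (B.M_pos n).ne'
    let z : ℕ → Eig B := fun k => ⟨conj (ω ^ k), n, by
      rw [← map_pow, ← pow_mul, mul_comm, pow_mul, hω.pow_eq_one, one_pow, map_one]⟩
    have hz : ∀ k p, conj (eigFun (z k) p) = (ω ^ k) ^ p.1.1 n := fun k p => by
      rw [eigFun_eq (z k) (n := n) ?_, map_pow]
      · simp only [z]; rw [Complex.conj_conj]
      · simp only [z]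
        rw [← map_pow, ← pow_mul, mul_comm, pow_mul, hω.pow_eq_one, one_pow, map_one]
    have e : ∀ p : Space B, (if p.1.1 n = j then (1 : ℂ) else 0) * g p
        = ∑ k ∈ Finset.range (B.M n), (conj ((ω ^ k) ^ j) / B.M n) *
          (conj (eigFun (z k) p) * g p) := fun p => by
      rw [indicator_level n j hj p, ← hωd, Finset.sum_div, Finset.sum_mul]
      refine Finset.sum_congr rfl fun k _ => ?_
      rw [hz]; ring
    simp only [e]
    have hint : ∀ k ∈ Finset.range (B.M n), Integrable (fun p => (conj ((ω ^ k) ^ j) / B.M n) *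
        (conj (eigFun (z k) p) * g p)) (mu B) := fun k _ => by
      refine (hi.bdd_mul (c := 1) ?_ ?_).const_mul _
      · exact (Complex.continuous_conj.measurable.comp
          (((Measurable.of_discrete (f := fun i : ℕ => (z k).1 ^ i)).comp
            (Om.measurable_coord _)).comp measurable_fst)).aestronglyMeasurable
      · refine Filter.Eventually.of_forall fun p => ?_
        rw [Complex.norm_conj, eigFun, norm_pow, norm_eig, one_pow]
    rw [integral_finsetSum _ hint, Finset.sum_eq_zero]
    intro k _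
    rw [integral_const_mul, h1, mul_zero]
  have hbasic : ∀ n j a, ∫ p in cell B n j a, g p ∂(mu B) = 0 := by
    intro n j a
    rcases lt_or_ge j (B.M n) with hj | hj
    swap
    · have : cell B n j a = ∅ := by rw [cell, cyl_empty B hj, empty_prod]
      simp [this]
    rw [← integral_indicator (measurableSet_cell B n j a)]
    have e : (cell B n j a).indicator g = fun p => (1 / 2 : ℂ) *
        ((if p.1.1 n = j then (1 : ℂ) else 0) * g p)
        + (sigma a * (B.word n j : ℂ) / 2) * (conj (cellFun n j p) * g p) := by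
      funext p
      by_cases hp : p.1.1 n = j
      · have hc : conj (cellFun n j p) = (B.word n j : ℂ) * sigma p.2 := by
          rw [cellFun, if_pos hp, map_mul, conj_sigma, Complex.conj_ofReal]
        rw [if_pos hp, hc]
        have hw : (B.word n j : ℂ) * B.word n j = 1 := by exact_mod_cast B.word_mul_self n j
        by_cases ha : p.2 = a
        · rw [indicator_of_mem (show p ∈ cell B n j a from ⟨hp, ha⟩), ha]
          linear_combination (-(g p) / 2) * ((B.word n j : ℂ) * B.word n j) * sigma_mul_self a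
            + (-(g p) / 2) * hw
        · rw [indicator_of_notMem (show p ∉ cell B n j a from fun h => ha h.2)]
          have : sigma a * sigma p.2 = -1 := by
            cases a <;> cases hb : p.2 <;> simp_all [sigma]
          linear_combination (-(g p) / 2) * ((B.word n j : ℂ) * B.word n j) * this
            + (g p / 2) * hw
      · rw [indicator_of_notMem (show p ∉ cell B n j a from fun h => hp h.1), cellFun, if_neg hp,
          if_neg hp]
        simp
    have i1 : Integrable (fun p : Space B => (if p.1.1 n = j then (1 : ℂ) else 0) * g p) (mu B) := by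
      refine hi.bdd_mul (c := 1) ?_ ?_
      · exact (((Measurable.of_discrete (f := fun k : ℕ => if k = j then (1 : ℂ) else 0)).comp
          (Om.measurable_coord n)).comp measurable_fst).aestronglyMeasurable
      · exact Filter.Eventually.of_forall fun p => by split_ifs <;> simp
    have i2 : Integrable (fun p : Space B => conj (cellFun n j p) * g p) (mu B) := by
      refine hi.bdd_mul (c := 1) ?_ ?_
      · exact (Complex.continuous_conj.measurable.comp
          (measurable_cellFun n j)).aestronglyMeasurable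
      · exact Filter.Eventually.of_forall fun p => by
          unfold cellFun sigma
          rcases B.word_sq n j with h | h <;> split_ifs <;> simp [h]
    rw [e, integral_add (i1.const_mul _) (i2.const_mul _), integral_const_mul, integral_const_mul,
      hlev n j hj, h2 n j hj]
    simp
  refine hi.ae_eq_zero_of_forall_setIntegral_eq_zero fun s hs hlt => ?_
  clear hlt
  have htot : ∫ p, g p ∂(mu B) = 0 := by
    have := h1 eigOne
    rwa [eigFun_one, show (fun p => conj ((1 : Space B → ℂ) p) * g p) = g from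
      funext fun p => by simp] at this
  induction s, hs using MeasurableSpace.induction_on_inter (generateFrom_cells B)
    (isPiSystem_cells B) with
  | empty => simp
  | basic t ht =>
    rcases ht with rfl | ⟨⟨n, j, a⟩, rfl⟩
    · simp
    · exact hbasic n j a
  | compl t htm ih => rw [setIntegral_compl htm hi, ih, htot, sub_zero]
  | iUnion t hd htm ih =>
    rw [integral_iUnion htm hd hi.integrableOn]
    simp [ih]

/-- The Morse extension built on flat blocks has simple spectrum: the eigenvalues of the odometer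
and one Lebesgue component. -/
theorem exists_spectral (B : Blocks) :
    ∃ (X : Type) (_ : MeasurableSpace X), StandardBorelSpace X ∧
    ∃ μ : Measure X, IsProbabilityMeasure μ ∧ NullSingletonClass μ ∧
    ∃ T : X ≃ᵐ X, MeasurePreserving T μ μ ∧
    ∃ (f : X → ℂ) (ι : Type) (e : ι → X → ℂ) (lam : ι → ℂ) (i₀ : ι),
      Countable ι ∧ e i₀ = 1 ∧ lam i₀ = 1 ∧ Injective lam ∧
      (∀ i x, e i (T x) = lam i * e i x) ∧
      MemLp f 2 μ ∧ (∀ i, MemLp (e i) 2 μ) ∧
      (∀ k l : ℤ, ∫ x, conj (f (((T.toEquiv : Equiv.Perm X) ^ k) x)) *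
          f (((T.toEquiv : Equiv.Perm X) ^ l) x) ∂μ = if k = l then 1 else 0) ∧
      (∀ i j, ∫ x, conj (e i x) * e j x ∂μ = open scoped Classical in if i = j then 1 else 0) ∧
      (∀ i (k : ℤ), ∫ x, conj (e i x) * f (((T.toEquiv : Equiv.Perm X) ^ k) x) ∂μ = 0) ∧
      ∀ g : X → ℂ, MemLp g 2 μ → (∀ i, ∫ x, conj (e i x) * g x ∂μ = 0) →
        (∀ k : ℤ, ∫ x, conj (f (((T.toEquiv : Equiv.Perm X) ^ k) x)) * g x ∂μ = 0) →
        g =ᵐ[μ] 0 := by
  obtain ⟨f, hf, horth, hspan⟩ := exists_cyclic (levelSys (B := B))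
  have hT := measurePreserving_shift B
  refine ⟨Space B, inferInstance, inferInstance, mu B, inferInstance, inferInstance, shift B, hT,
    f, Eig B, eigFun, Subtype.val, eigOne, inferInstance, eigFun_one, rfl, Subtype.val_injective,
    eigFun_shift, Lp.memLp f, memLp_eigFun, ?_, fun i j => ?_, fun i k => ?_, ?_⟩
  · intro k l
    have h := orthonormal_iff_ite.1 horth k l
    rw [L2.inner_def] at h
    rw [← h]
    refine integral_congr_ae ?_
    filter_upwards [coeFn_koop_zpow k f, coeFn_koop_zpow l f] with p hk hl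
    rw [hk, hl, RCLike.inner_apply, mul_comm]
  · rw [integral_eig_eig]; congr
  · have hm : (koop B ^ k) f ∈ closure
        (Submodule.span ℂ (range (orb B (koop B) cellVec)) : Set (Lp ℂ 2 (mu B))) := by
      refine closure_mono ?_ (image_closure_subset_closure_image (koop B ^ k).continuous
        ⟨f, hf, rfl⟩)
      show ((Submodule.map ((koop B ^ k).toLinearEquiv : Lp ℂ 2 (mu B) →ₗ[ℂ] Lp ℂ 2 (mu B))
        (Submodule.span ℂ (range (orb B (koop B) cellVec)))) : Set (Lp ℂ 2 (mu B))) ⊆ _
      rw [Submodule.map_span, SetLike.coe_subset_coe, Submodule.span_le]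
      rintro _ ⟨_, ⟨a, rfl⟩, rfl⟩
      exact Submodule.subset_span ⟨_, (zpow_orb (koop B) cellVec k a).symm⟩
    have h := inner_eq_zero_of_mem_closure (v := (memLp_eigFun i).toLp _) hm
      (fun w hw => by obtain ⟨a, rfl⟩ := hw; exact inner_eig_orb i a)
    rw [L2.inner_def] at h
    refine Eq.trans (integral_congr_ae ?_) h
    filter_upwards [coeFn_koop_zpow k f, (memLp_eigFun i).coeFn_toLp] with p hk he
    rw [hk, he, RCLike.inner_apply, mul_comm]
  · intro g hg h1 h2
    refine complete_of_orth hg h1 fun n j hj => ?_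
    have hgf : ∀ k : ℤ, ⟪hg.toLp g, (koop B ^ k) f⟫_ℂ = 0 := fun k => by
      rw [← inner_conj_symm, L2.inner_def]
      rw [show ∫ p, ⟪((koop B ^ k) f) p, (hg.toLp g) p⟫_ℂ ∂(mu B) = 0 from ?_, map_zero]
      refine Eq.trans (integral_congr_ae ?_) (h2 k)
      filter_upwards [coeFn_koop_zpow k f, hg.coeFn_toLp] with p hk he
      rw [hk, he, RCLike.inner_apply, mul_comm]
    have h := inner_eq_zero_of_mem_closure (hspan ⟨n, ⟨⟨j, hj⟩, 0⟩⟩)
      (fun w hw => by obtain ⟨k, rfl⟩ := hw; exact hgf k)
    have h' : ⟪hg.toLp g, cellVec n j⟫_ℂ = 0 := by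
      simpa [orb] using h
    rw [← inner_toLp (memLp_cellFun n j) hg, ← inner_conj_symm]
    rw [show ⟪hg.toLp g, (memLp_cellFun n j).toLp _⟫_ℂ = 0 from h', map_zero]

end Vale.Agent.P130.Morse
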