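import Vale.Agent.P110.Flat.Main
import Vale.Agent.P130.Morse.Spectrum

/-! # P130 — sign blocks from ultraflat Littlewood polynomials -/

noncomputable section

open Finset

namespace Vale.Agent.P130.Morse

theorem exists_block (n : ℕ) :
    ∃ (N : ℕ) (s : ℕ → ℝ), 2 ≤ N ∧ (∀ i, s i = 1 ∨ s i = -1) ∧ ∀ z : ℂ, ‖z‖ = 1 →
      |‖∑ i ∈ range N, (s i : ℂ) * z ^ i‖ ^ 2 / N - 1| ≤ (1 / 2) ^ (n + 2) := by
  set e : ℝ := (1 / 2) ^ (n + 2) with he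
  have he0 : 0 < e := by positivity
  have he1 : e ≤ 1 := pow_le_one₀ (by norm_num) (by norm_num)
  obtain ⟨N₀, hN₀⟩ := Vale.Agent.P110.Flat.ultraflat (e / 3) (by positivity)
  obtain ⟨N, hN, hN2⟩ : ∃ N, N₀ ≤ N ∧ 2 ≤ N :=
    ⟨max N₀ 2, le_max_left _ _, le_max_right _ _⟩
  obtain ⟨ε, hε, hflat⟩ := hN₀ N hN
  refine ⟨N, fun i => if h : i < N then ε ⟨i, h⟩ else 1, hN2, fun i => ?_,
    fun z hz => ?_⟩
  · dsimp only
    split_ifs
    · exact hε _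
    · exact Or.inl rfl
  have hsum : ∑ i ∈ range N, ((if h : i < N then ε ⟨i, h⟩ else 1 : ℝ) : ℂ) * z ^ i
      = ∑ i : Fin N, (ε i : ℂ) * z ^ (i : ℕ) := by
    rw [← Fin.sum_univ_eq_sum_range
      (fun i => ((if h : i < N then ε ⟨i, h⟩ else 1 : ℝ) : ℂ) * z ^ i)]
    exact sum_congr rfl fun i _ => by rw [dif_pos i.2]
  rw [hsum]
  obtain ⟨hl, hu⟩ := hflat z hz
  have hN0 : (0 : ℝ) < N := by
    exact_mod_cast lt_of_lt_of_le two_pos hN2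
  set S := ‖∑ i : Fin N, (ε i : ℂ) * z ^ (i : ℕ)‖
  have h1 : S ^ 2 ≤ ((1 + e / 3) * Real.sqrt N) ^ 2 :=
    pow_le_pow_left₀ (norm_nonneg _) hu 2
  have h2 : ((1 - e / 3) * Real.sqrt N) ^ 2 ≤ S ^ 2 :=
    pow_le_pow_left₀ (mul_nonneg (by linarith) (Real.sqrt_nonneg _)) hl 2
  rw [mul_pow, Real.sq_sqrt hN0.le] at h1 h2
  rw [abs_sub_le_iff, sub_le_iff_le_add, sub_le_comm, div_le_iff₀ hN0, le_div_iff₀ hN0]
  have h3 : e ^ 2 ≤ e := by nlinarith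
  constructor <;> nlinarith [mul_le_mul_of_nonneg_right h3 hN0.le]

theorem exists_flatBlocks : Nonempty Blocks := by
  choose N s hN hs hflat using exists_block
  exact ⟨{ len := N, two_le := hN, sgn := s, sgn_sq := hs, flat := hflat }⟩

end Vale.Agent.P130.Morse
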