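import Vale.Agent.P130.Morse.Defs

/-! # P130 — the odometer, its two-point Morse extension and the invariant measure -/

noncomputable section

open MeasureTheory MeasurableSpace Set
open scoped ENNReal

namespace Vale.Agent.P130.Morse

/-- The odometer space. -/
abbrev Om (B : Blocks) : Type :=
  {x : ℕ → ℕ // ∀ n, x n < B.M n ∧ x (n + 1) % B.M n = x n}

instance (B : Blocks) : StandardBorelSpace (Om B) :=
  MeasurableSet.standardBorel (s := {x : ℕ → ℕ | ∀ n, x n < B.M n ∧ x (n + 1) % B.M n = x n}) <| by
    simp only [ofPred_forall]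
    refine MeasurableSet.iInter fun n => ?_
    have hm : Measurable fun x : ℕ → ℕ => (x n, x (n + 1)) :=
      (measurable_pi_apply n).prodMk (measurable_pi_apply (n + 1))
    exact hm (MeasurableSet.of_discrete (s := {p : ℕ × ℕ | p.1 < B.M n ∧ p.2 % B.M n = p.1}))

/-- The phase space. -/
abbrev Space (B : Blocks) := Om B × Bool

namespace Om

variable {B : Blocks}

theorem lt (x : Om B) (n : ℕ) : x.1 n < B.M n := (x.2 n).1

theorem mod_eq (x : Om B) {n m : ℕ} (h : n ≤ m) : x.1 m % B.M n = x.1 n := by
  induction m, h using Nat.le_induction with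
  | base => exact Nat.mod_eq_of_lt (x.lt n)
  | succ m hm ih => rw [← ih, ← (x.2 m).2, Nat.mod_mod_of_dvd _ (B.M_dvd hm)]

theorem measurable_coord (n : ℕ) : Measurable fun x : Om B => x.1 n :=
  (measurable_pi_apply n).comp measurable_subtype_coe

theorem measurableSet_cyl (n j : ℕ) : MeasurableSet {x : Om B | x.1 n = j} :=
  measurable_coord n (measurableSet_singleton j)

theorem measurable_of_coord {α : Type*} [MeasurableSpace α] {f : α → Om B}
    (h : ∀ n, Measurable fun a => (f a).1 n) : Measurable f :=
  Measurable.subtype_mk (measurable_pi_lambda _ h)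

/-- The odometer. -/
def succ (x : Om B) : Om B :=
  ⟨fun n => (x.1 n + 1) % B.M n, fun n => ⟨Nat.mod_lt _ (B.M_pos n), by
    rw [Nat.mod_mod_of_dvd _ (B.M_dvd n.le_succ), Nat.add_mod, (x.2 n).2, Nat.add_mod_mod]⟩⟩

theorem pred_aux (B : Blocks) (n : ℕ) : (B.M (n + 1) - 1) % B.M n = B.M n - 1 := by
  have h1 := B.M_pos n
  obtain ⟨N, hN⟩ := Nat.exists_eq_add_of_le (B.two_le n)
  have : B.M (n + 1) - 1 = (B.M n - 1) + (N + 1) * B.M n := by
    have e : B.M (n + 1) = B.M n + (N + 1) * B.M n := by rw [Blocks.M, hN]; ring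
    omega
  rw [this, Nat.add_mul_mod_self_right, Nat.mod_eq_of_lt (by omega)]

/-- The inverse of the odometer. -/
def pred (x : Om B) : Om B :=
  ⟨fun n => (x.1 n + (B.M n - 1)) % B.M n, fun n => ⟨Nat.mod_lt _ (B.M_pos n), by
    rw [Nat.mod_mod_of_dvd _ (B.M_dvd n.le_succ), Nat.add_mod, (x.2 n).2, pred_aux]⟩⟩

theorem pred_succ (x : Om B) : pred (succ x) = x := by
  refine Subtype.ext (funext fun n => ?_)
  show ((x.1 n + 1) % B.M n + (B.M n - 1)) % B.M n = x.1 n
  rw [Nat.mod_add_mod, show x.1 n + 1 + (B.M n - 1) = x.1 n + B.M n by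
    have := B.M_pos n; omega, Nat.add_mod_right, Nat.mod_eq_of_lt (x.lt n)]

theorem succ_pred (x : Om B) : succ (pred x) = x := by
  refine Subtype.ext (funext fun n => ?_)
  show ((x.1 n + (B.M n - 1)) % B.M n + 1) % B.M n = x.1 n
  rw [Nat.mod_add_mod, show x.1 n + (B.M n - 1) + 1 = x.1 n + B.M n by
    have := B.M_pos n; omega, Nat.add_mod_right, Nat.mod_eq_of_lt (x.lt n)]

theorem measurable_succ : Measurable (succ : Om B → Om B) :=
  measurable_of_coord fun n =>
    (Measurable.of_discrete (f := fun j : ℕ => (j + 1) % B.M n)).comp (measurable_coord n)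

theorem measurable_pred : Measurable (pred : Om B → Om B) :=
  measurable_of_coord fun n =>
    (Measurable.of_discrete (f := fun j : ℕ => (j + (B.M n - 1)) % B.M n)).comp (measurable_coord n)

theorem succ_coord {x : Om B} {n : ℕ} (h : x.1 n + 1 < B.M n) : (succ x).1 n = x.1 n + 1 :=
  Nat.mod_eq_of_lt h

/-- The word changes sign across the step from `x`. -/
def Flips (x : Om B) : Prop :=
  ∃ n, x.1 n + 1 < B.M n ∧ B.word n (x.1 n) * B.word n (x.1 n + 1) = -1

theorem word_step (x : Om B) {n m : ℕ} (h : n ≤ m) (hx : x.1 n + 1 < B.M n) :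
    x.1 m + 1 < B.M m ∧ B.word m (x.1 m) * B.word m (x.1 m + 1)
      = B.word n (x.1 n) * B.word n (x.1 n + 1) := by
  induction m, h using Nat.le_induction with
  | base => exact ⟨hx, rfl⟩
  | succ m hm ih =>
    obtain ⟨h1, h2⟩ := ih
    set i := x.1 (m + 1) / B.M m with hi
    have e : x.1 (m + 1) = x.1 m + i * B.M m := by
      rw [← (x.2 m).2, hi, mul_comm, Nat.mod_add_div]
    have hil : i < B.len m := by
      have hl := x.lt (m + 1)
      rw [hi, Nat.div_lt_iff_lt_mul (B.M_pos m), mul_comm]
      exact hl
    constructor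
    · rw [e, add_right_comm]; exact B.extend_lt h1 hil
    · rw [e, add_right_comm, B.word_extend (by omega), B.word_extend h1, mul_mul_mul_comm,
        B.sgn_mul_self, mul_one, h2]

theorem flips_iff (x : Om B) {n : ℕ} (hx : x.1 n + 1 < B.M n) :
    x.Flips ↔ B.word n (x.1 n) * B.word n (x.1 n + 1) = -1 := by
  refine ⟨fun ⟨m, hm, he⟩ => ?_, fun h => ⟨n, hx, h⟩⟩
  rw [← (x.word_step (le_max_left n m) hx).2, (x.word_step (le_max_right n m) hm).2, he]

theorem measurableSet_flips : MeasurableSet {x : Om B | x.Flips} := by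
  simp only [Flips, ofPred_exists]
  exact MeasurableSet.iUnion fun n => measurable_coord n
    (MeasurableSet.of_discrete (s := {j : ℕ | j + 1 < B.M n ∧
      B.word n j * B.word n (j + 1) = -1}))

end Om

variable (B : Blocks)

open scoped Classical in
/-- The flip of the fibre over `x`. -/
def flip (x : Om B) (a : Bool) : Bool := if x.Flips then !a else a

theorem flip_flip (x : Om B) (a : Bool) : flip B x (flip B x a) = a := by
  unfold flip; split_ifs <;> simp

theorem measurable_flip : Measurable fun p : Space B => flip B p.1 p.2 := by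
  unfold flip
  exact Measurable.ite (measurable_fst Om.measurableSet_flips)
    ((Measurable.of_discrete (f := not)).comp measurable_snd) measurable_snd

/-- The Morse extension. -/
def shift : Space B ≃ᵐ Space B where
  toFun p := (p.1.succ, flip B p.1 p.2)
  invFun p := (p.1.pred, flip B p.1.pred p.2)
  left_inv p := by simp [Om.pred_succ, flip_flip]
  right_inv p := by simp [Om.succ_pred, flip_flip]
  measurable_toFun := (Om.measurable_succ.comp measurable_fst).prodMk (measurable_flip B)
  measurable_invFun := (Om.measurable_pred.comp measurable_fst).prodMk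
    ((measurable_flip B).comp ((Om.measurable_pred.comp measurable_fst).prodMk measurable_snd))

theorem shift_apply (p : Space B) : shift B p = (p.1.succ, flip B p.1 p.2) := rfl

/-- The order of the levels read off from the base-point in `[0,1)`. -/
def rho : ℕ → ℕ → ℕ
  | 0, _ => 0
  | n + 1, k => rho n (k / B.len n) + B.M n * (k % B.len n)

/-- The inverse of `rho n`. -/
def unrho : ℕ → ℕ → ℕ
  | 0, _ => 0
  | n + 1, j => unrho n (j % B.M n) * B.len n + j / B.M n

theorem len_pos (n : ℕ) : 0 < B.len n := lt_of_lt_of_le two_pos (B.two_le n)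

theorem rho_lt : ∀ n k, rho B n k < B.M n
  | 0, _ => one_pos
  | n + 1, k => by
      rw [rho, mul_comm]
      exact B.extend_lt (rho_lt n _) (Nat.mod_lt _ (len_pos B n))

theorem rho_succ_mod (n k : ℕ) : rho B (n + 1) k % B.M n = rho B n (k / B.len n) := by
  rw [rho, Nat.add_mul_mod_self_left, Nat.mod_eq_of_lt (rho_lt B n _)]

theorem unrho_lt : ∀ n j, j < B.M n → unrho B n j < B.M n
  | 0, _, _ => one_pos
  | n + 1, j, hj => by
      rw [unrho]
      have h1 := unrho_lt n _ (Nat.mod_lt j (B.M_pos n))
      have h2 : j / B.M n < B.len n := by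
        rw [Nat.div_lt_iff_lt_mul (B.M_pos n), mul_comm]; exact hj
      calc unrho B n (j % B.M n) * B.len n + j / B.M n
          < unrho B n (j % B.M n) * B.len n + B.len n := by omega
        _ = (unrho B n (j % B.M n) + 1) * B.len n := by ring
        _ ≤ B.M n * B.len n := Nat.mul_le_mul_right _ h1

theorem rho_eq_iff : ∀ n k j, k < B.M n → j < B.M n → (rho B n k = j ↔ k = unrho B n j)
  | 0, k, j, hk, hj => by
      simp only [Blocks.M, Nat.lt_one_iff] at hk hj
      simp [rho, unrho, hk, hj]
  | n + 1, k, j, hk, hj => by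
      have hN := len_pos B n
      have hM := B.M_pos n
      have hj2 : j / B.M n < B.len n := by
        rw [Nat.div_lt_iff_lt_mul hM, mul_comm]; exact hj
      have ih := rho_eq_iff n (k / B.len n) (j % B.M n)
        ((Nat.div_lt_iff_lt_mul hN).2 hk) (Nat.mod_lt _ hM)
      constructor
      · intro h
        have h1 : k / B.len n = unrho B n (j % B.M n) :=
          ih.1 (by rw [← h, rho_succ_mod])
        have h2 : k % B.len n = j / B.M n := by
          rw [← h, rho, Nat.add_mul_div_left _ _ hM, Nat.div_eq_of_lt (rho_lt B n _), zero_add]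
        rw [unrho, ← h1, ← h2, Nat.div_add_mod']
      · intro h
        have h1 : k / B.len n = unrho B n (j % B.M n) := by
          rw [h, unrho, mul_comm, Nat.mul_add_div hN, Nat.div_eq_of_lt hj2, add_zero]
        have h2 : k % B.len n = j / B.M n := by
          rw [h, unrho, Nat.add_comm, Nat.add_mul_mod_self_right, Nat.mod_eq_of_lt hj2]
        rw [rho, ih.2 h1, h2, Nat.mod_add_div]

theorem floor_lt_M (n : ℕ) (r : ℝ) : ⌊Int.fract r * B.M n⌋₊ < B.M n := by
  rw [Nat.floor_lt (mul_nonneg (Int.fract_nonneg r) (Nat.cast_nonneg _))]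
  exact mul_lt_of_lt_one_left (by exact_mod_cast B.M_pos n) (Int.fract_lt_one r)

/-- The point of the odometer read off from a real number. -/
def point (r : ℝ) : Om B :=
  ⟨fun n => rho B n ⌊Int.fract r * B.M n⌋₊, fun n => ⟨rho_lt B n _, by
    rw [rho_succ_mod, ← Nat.floor_div_natCast, Blocks.M, Nat.cast_mul, ← mul_assoc,
      mul_div_cancel_right₀ _ (by exact_mod_cast (len_pos B n).ne')]⟩⟩

theorem measurable_point : Measurable (point B) :=
  Om.measurable_of_coord fun n =>
    (Measurable.of_discrete (f := rho B n)).comp (measurable_fract.mul_const _).nat_floor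

/-- The invariant measure of the odometer. -/
def nu : Measure (Om B) := Measure.map (point B) (volume.restrict (Ico (0 : ℝ) 1))

instance : IsProbabilityMeasure (nu B) := by
  have : IsProbabilityMeasure (volume.restrict (Ico (0 : ℝ) 1)) := ⟨by simp⟩
  exact Measure.isProbabilityMeasure_map (measurable_point B).aemeasurable

theorem nu_cyl {n j : ℕ} (hj : j < B.M n) :
    nu B {x | x.1 n = j} = ENNReal.ofReal ((B.M n : ℝ)⁻¹) := by
  have hM : (0 : ℝ) < B.M n := by exact_mod_cast B.M_pos n
  rw [nu, Measure.map_apply (measurable_point B) (Om.measurableSet_cyl n j),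
    Measure.restrict_apply (measurable_point B (Om.measurableSet_cyl n j))]
  have e : point B ⁻¹' {x | x.1 n = j} ∩ Ico (0 : ℝ) 1
      = Ico ((unrho B n j : ℝ) / B.M n) ((unrho B n j + 1) / B.M n) := by
    ext r
    have hu : (unrho B n j : ℝ) + 1 ≤ B.M n := by exact_mod_cast unrho_lt B n j hj
    simp only [mem_inter_iff, mem_preimage, mem_ofPred_eq, mem_Ico, div_le_iff₀ hM,
      lt_div_iff₀ hM]
    constructor
    · rintro ⟨h, h0, h1⟩
      have h' : rho B n ⌊Int.fract r * B.M n⌋₊ = j := h
      rw [rho_eq_iff B n _ _ (floor_lt_M B n r) hj, Int.fract_eq_self.2 ⟨h0, h1⟩,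
        Nat.floor_eq_iff (mul_nonneg h0 hM.le)] at h'
      exact h'
    · rintro ⟨h1, h2⟩
      have h0 : 0 ≤ r := nonneg_of_mul_nonneg_left ((Nat.cast_nonneg _).trans h1) hM
      have h3 : r < 1 := by nlinarith
      refine ⟨?_, h0, h3⟩
      show rho B n ⌊Int.fract r * B.M n⌋₊ = j
      rw [rho_eq_iff B n _ _ (floor_lt_M B n r) hj, Int.fract_eq_self.2 ⟨h0, h3⟩,
        Nat.floor_eq_iff (mul_nonneg h0 hM.le)]
      exact ⟨h1, h2⟩
  rw [e, Real.volume_Ico]
  congr 1
  field_simp
  ring

theorem cyl_empty {n j : ℕ} (hj : B.M n ≤ j) : {x : Om B | x.1 n = j} = ∅ := by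
  ext x; simp only [mem_ofPred_eq, mem_empty_iff_false, iff_false]
  have := x.lt n; omega

/-- The basic sets. -/
def cell (n j : ℕ) (a : Bool) : Set (Space B) := {x : Om B | x.1 n = j} ×ˢ {a}

/-- The π-system of basic sets. -/
def cells : Set (Set (Space B)) := insert ∅ (range fun q : ℕ × ℕ × Bool => cell B q.1 q.2.1 q.2.2)

theorem isPiSystem_cells : IsPiSystem (cells B) := by
  have key : ∀ n m, n ≤ m → ∀ j k a b, cell B n j a ∩ cell B m k b ∈ cells B := by
    intro n m h j k a b
    by_cases hjk : k % B.M n = j ∧ a = b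
    · refine Or.inr ⟨(m, k, b), ?_⟩
      ext ⟨x, c⟩
      simp only [cell, mem_inter_iff, mem_prod, mem_ofPred_eq, mem_singleton_iff]
      refine ⟨fun hx => ⟨⟨?_, ?_⟩, hx⟩, fun hx => hx.2⟩
      · rw [← hjk.1, ← hx.1, x.mod_eq h]
      · rw [hjk.2, hx.2]
    · refine Or.inl ?_
      ext ⟨x, c⟩
      simp only [cell, mem_inter_iff, mem_prod, mem_ofPred_eq, mem_singleton_iff, mem_empty_iff_false,
        iff_false]
      rintro ⟨⟨h1, h2⟩, h3, h4⟩
      exact hjk ⟨by rw [← h3, x.mod_eq h, h1], by rw [← h2, h4]⟩
  rintro s hs t ht hne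
  rcases hs with rfl | ⟨⟨n, j, a⟩, rfl⟩
  · simp at hne
  rcases ht with rfl | ⟨⟨m, k, b⟩, rfl⟩
  · simp at hne
  rcases le_total n m with h | h
  · exact key n m h j k a b
  · rw [inter_comm]; exact key m n h k j b a

theorem measurableSet_cell (n j : ℕ) (a : Bool) : MeasurableSet (cell B n j a) :=
  (Om.measurableSet_cyl n j).prod (measurableSet_singleton a)

theorem generateFrom_cells :
    (inferInstance : MeasurableSpace (Space B)) = generateFrom (cells B) := by
  refine le_antisymm ?_ (generateFrom_le ?_)
  · have hmem : ∀ n j a, MeasurableSet[generateFrom (cells B)] (cell B n j a) :=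
      fun n j a => measurableSet_generateFrom (Or.inr ⟨(n, j, a), rfl⟩)
    have h0 : Measurable[generateFrom (cells B)] (fun p : Space B => p.1.1) :=
      @measurable_pi_lambda (Space B) ℕ (fun _ => ℕ) (generateFrom (cells B)) _ _ fun n =>
        @measurable_to_countable' ℕ (Space B) _ _ (generateFrom (cells B)) _ fun j => by
          have : (fun p : Space B => p.1.1 n) ⁻¹' {j} = cell B n j true ∪ cell B n j false := by
            ext ⟨x, a⟩; cases a <;> simp [cell]
          exact this ▸ MeasurableSet.union (hmem n j true) (hmem n j false)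
    have h1 : Measurable[generateFrom (cells B)] (Prod.fst : Space B → Om B) :=
      @Measurable.subtype_mk (Space B) (ℕ → ℕ) (generateFrom (cells B)) _
        (fun x => ∀ n, x n < B.M n ∧ x (n + 1) % B.M n = x n) _ h0 (fun p => p.1.2)
    have h2 : Measurable[generateFrom (cells B)] (Prod.snd : Space B → Bool) :=
      @measurable_to_countable' Bool (Space B) _ _ (generateFrom (cells B)) _ fun a => by
        have : (Prod.snd : Space B → Bool) ⁻¹' {a} = cell B 0 0 a := by
          ext ⟨x, b⟩
          have := x.lt 0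
          simp only [Blocks.M, Nat.lt_one_iff] at this
          simp [cell, this]
        exact this ▸ hmem 0 0 a
    exact sup_le h1.comap_le h2.comap_le
  · rintro s (rfl | ⟨q, rfl⟩)
    · exact MeasurableSet.empty
    · exact measurableSet_cell B _ _ _

/-- The fair coin. -/
def coin : Measure Bool := (2 : ℝ≥0∞)⁻¹ • (Measure.dirac false + Measure.dirac true)

theorem coin_singleton (a : Bool) : coin {a} = 2⁻¹ := by cases a <;> simp [coin]

instance : IsProbabilityMeasure coin :=
  ⟨by simp [coin, ENNReal.inv_two_add_inv_two]⟩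

/-- The invariant measure. -/
def mu : Measure (Space B) := (nu B).prod coin

instance : IsProbabilityMeasure (mu B) := by unfold mu; infer_instance

theorem measurePreserving_succ :
    MeasurePreserving (Om.succ : Om B → Om B) (nu B) (nu B) := by
  have hπ : MeasurePreserving (fun p : Space B => p.1) (mu B) (nu B) := measurePreserving_fst
  refine ⟨Om.measurable_succ, ?_⟩
  have e : ((nu B).map Om.succ).prod coin = mu B := by
    refine ext_of_generate_finite (cells B) (generateFrom_cells B) (isPiSystem_cells B) ?_ ?_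
    · rintro s (rfl | ⟨⟨n, j, a⟩, rfl⟩)
      · simp
      show ((nu B).map Om.succ).prod coin ({x | x.1 n = j} ×ˢ {a})
        = (nu B).prod coin ({x | x.1 n = j} ×ˢ {a})
      rw [Measure.prod_prod, Measure.prod_prod,
        Measure.map_apply Om.measurable_succ (Om.measurableSet_cyl n j)]
      congr 1
      rcases lt_or_ge j (B.M n) with hj | hj
      · have : (Om.succ : Om B → Om B) ⁻¹' {x | x.1 n = j}
            = {x | x.1 n = (j + (B.M n - 1)) % B.M n} := by
          ext x
          simp only [mem_preimage, mem_ofPred_eq]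
          constructor
          · intro h
            conv_lhs => rw [← Om.pred_succ x]
            show ((Om.succ x).1 n + (B.M n - 1)) % B.M n = _
            rw [h]
          · intro h
            show (x.1 n + 1) % B.M n = j
            rw [h, Nat.mod_add_mod, show j + (B.M n - 1) + 1 = j + B.M n by
              have := B.M_pos n; omega, Nat.add_mod_right, Nat.mod_eq_of_lt hj]
        rw [this, nu_cyl B hj, nu_cyl B (Nat.mod_lt _ (B.M_pos n))]
      · rw [cyl_empty B hj, preimage_empty]
    · have := Measure.isProbabilityMeasure_map (μ := nu B) Om.measurable_succ.aemeasurable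
      simp
  have := Measure.isProbabilityMeasure_map (μ := nu B) Om.measurable_succ.aemeasurable
  have h1 := congrArg (Measure.map (fun p : Space B => p.1)) e
  rw [Measure.map_fst_prod, measure_univ, one_smul] at h1
  rw [h1, hπ.map_eq]

theorem measurePreserving_shift : MeasurePreserving (shift B) (mu B) (mu B) := by
  refine (measurePreserving_succ B).skew_product (g := fun x a => flip B x a)
    (measurable_flip B) (Filter.Eventually.of_forall fun x => ?_)
  refine Measure.ext_of_singleton fun a => ?_
  rw [Measure.map_apply Measurable.of_discrete (measurableSet_singleton a)]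
  have : (fun b => flip B x b) ⁻¹' {a} = {flip B x a} := by
    ext b
    simp only [mem_preimage, mem_singleton_iff]
    exact ⟨fun h => by rw [← h, flip_flip], fun h => by rw [h, flip_flip]⟩
  rw [this, coin_singleton, coin_singleton]

instance : NullSingletonClass (mu B) := ⟨fun p => by
  refine le_antisymm ?_ bot_le
  have hle : ∀ n, mu B {p} ≤ ENNReal.ofReal ((B.M n : ℝ)⁻¹) := fun n => by
    rw [← nu_cyl B (p.1.lt n), mu, ← singleton_prod_singleton, Measure.prod_prod]
    exact (mul_le_of_le_one_right zero_le prob_le_one).trans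
      (measure_mono fun x hx => by simp [mem_singleton_iff.1 hx])
  have ht : Filter.Tendsto (fun n => ENNReal.ofReal ((B.M n : ℝ)⁻¹)) Filter.atTop (nhds ⊥) := by
    simpa using ENNReal.tendsto_ofReal
      ((tendsto_natCast_atTop_atTop (R := ℝ)).comp B.tendsto_M).inv_tendsto_atTop
  exact ge_of_tendsto' ht hle⟩

end Vale.Agent.P130.Morse
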