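import Vale.Agent.P130.Morse.Defs

/-! # P130 — two level systems have the same correlations; transfer of a cyclic vector -/

noncomputable section

open scoped InnerProductSpace Topology
open Filter Finset

namespace Vale.Agent.P130.Morse

variable {B : Blocks} {H H' : Type*} [NormedAddCommGroup H] [InnerProductSpace ℂ H]
  [NormedAddCommGroup H'] [InnerProductSpace ℂ H']
  {U : H ≃ₗᵢ[ℂ] H} {g : ℕ → ℕ → H} {U' : H' ≃ₗᵢ[ℂ] H'} {g' : ℕ → ℕ → H'}

/-- The expansion coefficients of a cell of level `n` at level `n + d`. -/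
def expCoef (B : Blocks) (n : ℕ) : ℕ → ℕ → ℕ → ℂ
  | 0, j, J => if J = j then 1 else 0
  | d + 1, j, J => expCoef B n d j (J % B.M (n + d)) * (B.sgn (n + d) (J / B.M (n + d)) : ℂ)

theorem norm_expCoef_le (n : ℕ) : ∀ d j J, ‖expCoef B n d j J‖ ≤ 1
  | 0, j, J => by rw [expCoef]; split_ifs <;> simp
  | d + 1, j, J => by
      rw [expCoef, norm_mul]
      refine mul_le_one₀ (norm_expCoef_le n d _ _) (norm_nonneg _) ?_
      rcases B.sgn_sq (n + d) (J / B.M (n + d)) with h | h <;> rw [h] <;> simp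

theorem sum_range_split {R : Type*} [AddCommMonoid R] (M N : ℕ) (hM : 0 < M) (F : ℕ → R) :
    ∑ J ∈ range (M * N), F J = ∑ j ∈ range M, ∑ i ∈ range N, F (j + i * M) := by
  rw [← Finset.sum_product']
  refine Finset.sum_nbij' (fun J => (J % M, J / M)) (fun p => p.1 + p.2 * M) ?_ ?_ ?_ ?_ ?_
  · intro J hJ
    rw [mem_range] at hJ
    exact mem_product.2 ⟨mem_range.2 (Nat.mod_lt _ hM),
      mem_range.2 ((Nat.div_lt_iff_lt_mul hM).2 (by rwa [mul_comm] at hJ))⟩
  · intro p hp
    rw [mem_product, mem_range, mem_range] at hp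
    rw [mem_range]
    calc p.1 + p.2 * M < (p.2 + 1) * M := by rw [add_mul, one_mul]; omega
      _ ≤ N * M := Nat.mul_le_mul_right _ hp.2
      _ = M * N := mul_comm _ _
  · intro J _
    show J % M + J / M * M = J
    rw [mul_comm]; exact Nat.mod_add_div J M
  · intro p hp
    rw [mem_product, mem_range, mem_range] at hp
    refine Prod.ext ?_ ?_
    · show (p.1 + p.2 * M) % M = p.1
      rw [Nat.add_mul_mod_self_right, Nat.mod_eq_of_lt hp.1]
    · show (p.1 + p.2 * M) / M = p.2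
      rw [Nat.add_mul_div_right _ _ hM, Nat.div_eq_of_lt hp.1, zero_add]
  · intro J _
    show F J = F (J % M + J / M * M)
    rw [mul_comm (J / M), Nat.mod_add_div]

namespace LevelSys

theorem expand (S : LevelSys B U g) (n : ℕ) {j : ℕ} (hj : j < B.M n) : ∀ d,
    g n j = ∑ J ∈ range (B.M (n + d)), expCoef B n d j J • g (n + d) J
  | 0 => by simp [expCoef, hj]
  | d + 1 => by
      rw [expand S n hj d]
      show _ = ∑ J ∈ range (B.M (n + d) * B.len (n + d)), _
      rw [sum_range_split _ _ (B.M_pos _)]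
      refine sum_congr rfl fun a ha => ?_
      rw [mem_range] at ha
      rw [S.refine _ a ha, smul_sum]
      refine sum_congr rfl fun i _ => ?_
      rw [smul_smul, expCoef, Nat.add_mul_mod_self_right, Nat.mod_eq_of_lt ha,
        Nat.add_mul_div_right _ _ (B.M_pos _), Nat.div_eq_of_lt ha, zero_add]
      rfl

theorem norm_g (S : LevelSys B U g) {n j : ℕ} (hj : j < B.M n) :
    ‖g n j‖ = Real.sqrt ((B.M n : ℝ)⁻¹) := by
  have h := S.gram n j j hj hj
  rw [if_pos rfl, inner_self_eq_norm_sq_to_K] at h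
  have h2 : ‖g n j‖ ^ 2 = (B.M n : ℝ)⁻¹ := by
    have h3 := congrArg Complex.re h
    simpa [← Complex.ofReal_natCast, ← Complex.ofReal_inv, ← Complex.ofReal_pow] using h3
  rw [← h2, Real.sqrt_sq (norm_nonneg _)]

theorem pow_succ_apply (U : H ≃ₗᵢ[ℂ] H) (k : ℕ) (v : H) : (U ^ (k + 1)) v = U ((U ^ k) v) := by
  rw [pow_succ']; rfl

theorem zpow_add_apply (U : H ≃ₗᵢ[ℂ] H) (a b : ℤ) (v : H) :
    (U ^ (a + b)) v = (U ^ a) ((U ^ b) v) := by
  rw [zpow_add]; rfl

theorem step_pow (S : LevelSys B U g) (n : ℕ) : ∀ (k j : ℕ), j + k < B.M n →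
    (U ^ k) (g n (j + k)) = g n j
  | 0, j, _ => rfl
  | k + 1, j, h => by
      rw [pow_succ_apply, show j + (k + 1) = (j + 1) + k by omega,
        step_pow S n k (j + 1) (by omega), S.step n j (by omega)]

/-- The shifted cell, cut off where it leaves the level. -/
def shiftCut (B : Blocks) {H : Type*} [AddCommMonoid H] [Module ℂ H] (g : ℕ → ℕ → H)
    (n d j k : ℕ) : H :=
  ∑ J ∈ range (B.M (n + d)), if k ≤ J then expCoef B n d j J • g (n + d) (J - k) else 0

theorem pow_near (S : LevelSys B U g) (n : ℕ) {j : ℕ} (hj : j < B.M n) (k d : ℕ) :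
    ‖(U ^ k) (g n j) - shiftCut B g n d j k‖ ≤ k * Real.sqrt ((B.M (n + d) : ℝ)⁻¹) := by
  rw [S.expand n hj d, shiftCut, map_sum, ← sum_sub_distrib]
  refine (norm_sum_le _ _).trans ?_
  calc ∑ J ∈ range (B.M (n + d)), ‖(U ^ k) (expCoef B n d j J • g (n + d) J) -
        if k ≤ J then expCoef B n d j J • g (n + d) (J - k) else 0‖
      ≤ ∑ J ∈ range (B.M (n + d)), if J < k then Real.sqrt ((B.M (n + d) : ℝ)⁻¹) else 0 := by
        refine sum_le_sum fun J hJ => ?_
        rw [mem_range] at hJ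
        by_cases h : k ≤ J
        · rw [if_pos h, if_neg (not_lt.2 h), map_smul]
          obtain ⟨a, rfl⟩ : ∃ a, J = a + k := ⟨J - k, by omega⟩
          rw [S.step_pow _ k a hJ, Nat.add_sub_cancel]
          simp
        · rw [if_neg h, if_pos (not_le.1 h), sub_zero, LinearIsometryEquiv.norm_map, norm_smul,
            S.norm_g hJ]
          exact mul_le_of_le_one_left (Real.sqrt_nonneg _) (norm_expCoef_le n d j J)
    _ ≤ k * Real.sqrt ((B.M (n + d) : ℝ)⁻¹) := by
        rw [← sum_filter, sum_const, nsmul_eq_mul]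
        refine mul_le_mul_of_nonneg_right ?_ (Real.sqrt_nonneg _)
        exact_mod_cast (card_le_card (fun J hJ => mem_range.2 (mem_filter.1 hJ).2)).trans
          (card_range k).le

theorem inner_level_eq (S : LevelSys B U g) (S' : LevelSys B U' g') (n : ℕ) (c c' : ℕ → ℂ)
    (p p' : ℕ → ℕ) (hp : ∀ J, J < B.M n → p J < B.M n) (hp' : ∀ J, J < B.M n → p' J < B.M n) :
    ⟪∑ J ∈ range (B.M n), c J • g n (p J), ∑ J ∈ range (B.M n), c' J • g n (p' J)⟫_ℂ
      = ⟪∑ J ∈ range (B.M n), c J • g' n (p J), ∑ J ∈ range (B.M n), c' J • g' n (p' J)⟫_ℂ := by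
  simp only [sum_inner, inner_sum, inner_smul_left, inner_smul_right]
  refine sum_congr rfl fun a ha => ?_
  congr 1
  refine sum_congr rfl fun b hb => ?_
  rw [mem_range] at ha hb
  rw [S.gram n _ _ (hp _ hb) (hp' _ ha), S'.gram n _ _ (hp _ hb) (hp' _ ha)]

theorem inner_cut_eq (S : LevelSys B U g) (S' : LevelSys B U' g') {n m d e : ℕ}
    (he : m + e = n + d) {j l : ℕ} (hj : j < B.M n) (k : ℕ) :
    ⟪g n j, shiftCut B g m e l k⟫_ℂ = ⟪g' n j, shiftCut B g' m e l k⟫_ℂ := by
  rw [S.expand n hj d, S'.expand n hj d, shiftCut, shiftCut, he]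
  have e1 : ∀ (J : ℕ),
      (if k ≤ J then expCoef B m e l J • g (n + d) (J - k) else 0)
        = (if k ≤ J then expCoef B m e l J else 0) • g (n + d) (J - k) := fun J => by
    split_ifs <;> simp
  have e2 : ∀ (J : ℕ),
      (if k ≤ J then expCoef B m e l J • g' (n + d) (J - k) else 0)
        = (if k ≤ J then expCoef B m e l J else 0) • g' (n + d) (J - k) := fun J => by
    split_ifs <;> simp
  rw [Finset.sum_congr rfl fun J _ => e1 J, Finset.sum_congr rfl fun J _ => e2 J]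
  exact inner_level_eq S S' _ _ _ id (fun J => J - k) (fun J h => h) fun J h => by omega

theorem inner_pow_eq (S : LevelSys B U g) (S' : LevelSys B U' g') {n m j l : ℕ}
    (hj : j < B.M n) (hl : l < B.M m) (k : ℕ) :
    ⟪g n j, (U ^ k) (g m l)⟫_ℂ = ⟪g' n j, (U' ^ k) (g' m l)⟫_ℂ := by
  set δ : ℕ → ℝ := fun t => (k : ℝ) * Real.sqrt ((B.M (max n m + t) : ℝ)⁻¹) with hδ
  have hδ0 : Tendsto δ atTop (𝓝 0) := by
    have h1 : Tendsto (fun t => (B.M (max n m + t) : ℝ)) atTop atTop :=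
      tendsto_natCast_atTop_atTop.comp (B.tendsto_M.comp (tendsto_atTop_mono
        (fun t => Nat.le_add_left t (max n m)) tendsto_id))
    simpa [hδ] using
      (((Real.continuous_sqrt.tendsto 0).comp h1.inv_tendsto_atTop).const_mul (k : ℝ))
  have key : ∀ t, ‖⟪g n j, (U ^ k) (g m l)⟫_ℂ - ⟪g' n j, (U' ^ k) (g' m l)⟫_ℂ‖
      ≤ (‖g n j‖ + ‖g' n j‖) * δ t := fun t => by
    obtain ⟨d, hd⟩ : ∃ d, max n m + t = n + d := ⟨max n m + t - n, by omega⟩
    obtain ⟨e, he⟩ : ∃ e, max n m + t = m + e := ⟨max n m + t - m, by omega⟩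
    have hc := inner_cut_eq S S' (n := n) (m := m) (d := d) (e := e) (by omega) (l := l) hj k
    have a := S.pow_near m hl k e
    have a' := S'.pow_near m hl k e
    rw [← he] at a a'
    rw [show ⟪g n j, (U ^ k) (g m l)⟫_ℂ - ⟪g' n j, (U' ^ k) (g' m l)⟫_ℂ
        = ⟪g n j, (U ^ k) (g m l) - shiftCut B g m e l k⟫_ℂ
          - ⟪g' n j, (U' ^ k) (g' m l) - shiftCut B g' m e l k⟫_ℂ by
      rw [inner_sub_right, inner_sub_right, hc]; ring]
    refine (norm_sub_le _ _).trans ?_
    rw [add_mul]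
    exact add_le_add
      ((norm_inner_le_norm _ _).trans (mul_le_mul_of_nonneg_left a (norm_nonneg _)))
      ((norm_inner_le_norm _ _).trans (mul_le_mul_of_nonneg_left a' (norm_nonneg _)))
  have := ge_of_tendsto (hδ0.const_mul (‖g n j‖ + ‖g' n j‖)) (Eventually.of_forall key)
  rw [mul_zero, norm_le_zero_iff, sub_eq_zero] at this
  exact this

theorem inner_zpow_eq (S : LevelSys B U g) (S' : LevelSys B U' g') {n m j l : ℕ}
    (hj : j < B.M n) (hl : l < B.M m) (a b : ℤ) :
    ⟪(U ^ a) (g n j), (U ^ b) (g m l)⟫_ℂ = ⟪(U' ^ a) (g' n j), (U' ^ b) (g' m l)⟫_ℂ := by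
  rcases le_total a b with h | h
  · obtain ⟨k, hk⟩ := Int.eq_ofNat_of_zero_le (show 0 ≤ b - a by omega)
    rw [show b = a + (k : ℤ) by omega, zpow_add_apply, zpow_add_apply,
      LinearIsometryEquiv.inner_map_map, LinearIsometryEquiv.inner_map_map, zpow_natCast,
      zpow_natCast]
    exact inner_pow_eq S S' hj hl k
  · obtain ⟨k, hk⟩ := Int.eq_ofNat_of_zero_le (show 0 ≤ a - b by omega)
    rw [show a = b + (k : ℤ) by omega, zpow_add_apply, zpow_add_apply,
      LinearIsometryEquiv.inner_map_map, LinearIsometryEquiv.inner_map_map, zpow_natCast,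
      zpow_natCast, ← inner_conj_symm, inner_pow_eq S S' hl hj k, inner_conj_symm]

end LevelSys

/-- All translates of all cells. -/
abbrev Orb (B : Blocks) := (n : ℕ) × (Fin (B.M n) × ℤ)

/-- The vector of an index in `Orb`. -/
def orb {H : Type*} [NormedAddCommGroup H] [InnerProductSpace ℂ H] (B : Blocks)
    (U : H ≃ₗᵢ[ℂ] H) (g : ℕ → ℕ → H) (a : Orb B) : H := (U ^ a.2.2) (g a.1 a.2.1)

theorem LevelSys.inner_orb (S : LevelSys B U g) (S' : LevelSys B U' g') (a b : Orb B) :
    ⟪orb B U g a, orb B U g b⟫_ℂ = ⟪orb B U' g' a, orb B U' g' b⟫_ℂ :=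
  S.inner_zpow_eq S' a.2.1.2 b.2.1.2 _ _

theorem zpow_orb (U : H ≃ₗᵢ[ℂ] H) (g : ℕ → ℕ → H) (k : ℤ) (a : Orb B) :
    (U ^ k) (orb B U g a) = orb B U g ⟨a.1, a.2.1, k + a.2.2⟩ :=
  (LevelSys.zpow_add_apply U k a.2.2 _).symm

theorem inner_lc_eq {ι : Type*} (v w : ι → H) (v' w' : ι → H')
    (h : ∀ a b, ⟪v a, w b⟫_ℂ = ⟪v' a, w' b⟫_ℂ) (c d : ι →₀ ℂ) :
    ⟪Finsupp.linearCombination ℂ v c, Finsupp.linearCombination ℂ w d⟫_ℂ
      = ⟪Finsupp.linearCombination ℂ v' c, Finsupp.linearCombination ℂ w' d⟫_ℂ := by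
  simp only [Finsupp.linearCombination_apply, Finsupp.sum, sum_inner, inner_sum, inner_smul_left,
    inner_smul_right, h]

/-- A vector with orthonormal complete orbit is transferred to the other system. -/
theorem exists_transfer [CompleteSpace H] (S : LevelSys B U g) (S' : LevelSys B U' g') (v : H')
    (hv : v ∈ closure (Submodule.span ℂ (Set.range (orb B U' g')) : Set H'))
    (horth : Orthonormal ℂ fun k : ℤ => (U' ^ k) v)
    (hfull : ∀ w : H', w ∈ closure
      (Submodule.span ℂ (Set.range fun k : ℤ => (U' ^ k) v) : Set H')) :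
    ∃ f : H, f ∈ closure (Submodule.span ℂ (Set.range (orb B U g)) : Set H) ∧
      Orthonormal ℂ (fun k : ℤ => (U ^ k) f) ∧
      ∀ a, orb B U g a ∈ closure
        (Submodule.span ℂ (Set.range fun k : ℤ => (U ^ k) f) : Set H) := by
  classical
  obtain ⟨x, hx, hxv⟩ := mem_closure_iff_seq_limit.1 hv
  have hx' : ∀ i, ∃ c : Orb B →₀ ℂ, Finsupp.linearCombination ℂ (orb B U' g') c = x i :=
    fun i => Finsupp.mem_span_range_iff_exists_finsupp.1 (hx i) |>.imp fun c hc => by
      simpa [Finsupp.linearCombination_apply] using hc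
  choose c hc using hx'
  set y : ℕ → H := fun i => Finsupp.linearCombination ℂ (orb B U g) (c i) with hy
  have hip := inner_lc_eq _ _ _ _ (S.inner_orb S')
  have hcauchy : CauchySeq y := by
    have hd : ∀ i i', dist (y i) (y i') = dist (x i) (x i') := fun i i' => by
      simp only [dist_eq_norm, hy, ← hc, ← map_sub]
      rw [@norm_eq_sqrt_re_inner ℂ, @norm_eq_sqrt_re_inner ℂ, hip]
    rw [Metric.cauchySeq_iff]
    simpa only [hd] using Metric.cauchySeq_iff.1 hxv.cauchySeq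
  obtain ⟨f, hf⟩ := cauchySeq_tendsto_of_complete hcauchy
  have hshift : ∀ (k l : ℤ) (a b : Orb B),
      ⟪(U ^ k) (orb B U g a), (U ^ l) (orb B U g b)⟫_ℂ
        = ⟪(U' ^ k) (orb B U' g' a), (U' ^ l) (orb B U' g' b)⟫_ℂ := fun k l a b => by
    simp only [zpow_orb, S.inner_orb S']
  have hzy : ∀ (k : ℤ) i, (U ^ k) (y i)
      = Finsupp.linearCombination ℂ (fun a => (U ^ k) (orb B U g a)) (c i) := fun k i => by
    simp [hy, Finsupp.linearCombination_apply, Finsupp.sum, map_sum, map_smul]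
  have hzx : ∀ (k : ℤ) i, (U' ^ k) (x i)
      = Finsupp.linearCombination ℂ (fun a => (U' ^ k) (orb B U' g' a)) (c i) := fun k i => by
    simp [← hc, Finsupp.linearCombination_apply, Finsupp.sum, map_sum, map_smul]
  have hff : ∀ k l : ℤ, ⟪(U ^ k) f, (U ^ l) f⟫_ℂ = ⟪(U' ^ k) v, (U' ^ l) v⟫_ℂ := fun k l => by
    refine tendsto_nhds_unique
      ((((U ^ k).continuous.tendsto f).comp hf).inner (((U ^ l).continuous.tendsto f).comp hf)) ?_
    refine ((((U' ^ k).continuous.tendsto v).comp hxv).inner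
      (((U' ^ l).continuous.tendsto v).comp hxv)).congr fun i => ?_
    simp only [Function.comp_apply, hzy, hzx]
    exact (inner_lc_eq _ _ _ _ (hshift k l) _ _).symm
  have hgf : ∀ a (l : ℤ), ⟪(U ^ l) f, orb B U g a⟫_ℂ = ⟪(U' ^ l) v, orb B U' g' a⟫_ℂ := by
    intro a l
    refine tendsto_nhds_unique
      ((((U ^ l).continuous.tendsto f).comp hf).inner tendsto_const_nhds) ?_
    refine ((((U' ^ l).continuous.tendsto v).comp hxv).inner tendsto_const_nhds).congr fun i => ?_
    simp only [Function.comp_apply, hzy, hzx]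
    have := inner_lc_eq _ (orb B U g) _ (orb B U' g')
      (fun b c' => (by simpa using hshift l 0 b c')) (c i) (Finsupp.single a 1)
    simpa using this.symm
  have horth' : Orthonormal ℂ fun k : ℤ => (U ^ k) f := by
    rw [orthonormal_iff_ite] at horth ⊢
    intro k l; rw [hff]; exact horth k l
  refine ⟨f, mem_closure_iff_seq_limit.2 ⟨y, fun i => ?_, hf⟩, horth', fun a => ?_⟩
  · exact (Finsupp.mem_span_range_iff_exists_finsupp).2
      ⟨c i, by simp [hy, Finsupp.linearCombination_apply]⟩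
  · rw [Metric.mem_closure_iff]
    intro ε hε
    obtain ⟨w, hw, hwd⟩ := Metric.mem_closure_iff.1 (hfull (orb B U' g' a)) ε hε
    obtain ⟨d, hd⟩ := Finsupp.mem_span_range_iff_exists_finsupp.1 hw
    refine ⟨d.sum fun k s => s • (U ^ k) f,
      Finsupp.mem_span_range_iff_exists_finsupp.2 ⟨d, rfl⟩, ?_⟩
    refine lt_of_eq_of_lt ?_ hwd
    rw [← hd, dist_eq_norm, dist_eq_norm, @norm_eq_sqrt_re_inner ℂ, @norm_eq_sqrt_re_inner ℂ]
    congr 2
    simp only [inner_sub_left, inner_sub_right, Finsupp.sum, sum_inner, inner_sum,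
      inner_smul_left, inner_smul_right, hff, S.inner_orb S']
    have e1 : ∀ k : ℤ, ⟪orb B U g a, (U ^ k) f⟫_ℂ = ⟪orb B U' g' a, (U' ^ k) v⟫_ℂ := fun k => by
      rw [← inner_conj_symm, hgf, inner_conj_symm]
    simp only [hgf, e1]

end Vale.Agent.P130.Morse
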